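import Vale.Agent.P159.TM.H694.Mono

/-!
Row GLUE. Comparison with an embedded connected graph; second moments.
-/

open MeasureTheory Filter Topology

namespace Vale.Agent.P159.TM.H694

open Vale.Agent.P159 Vale.Agent.P159.H353 Vale.Agent.P159.T1.H934 Vale.Agent.P159.T1.H910

section equiv

variable {V E V' E' : Type} [Fintype V] [Fintype E] [Fintype V'] [Fintype E']

/-- the partition function does not depend on the names of the vertices and edges -/
lemma mZ_equiv (σ : V' ≃ V) (τ : E' ≃ E) (s t : E → V) (b : E → ℝ) (m g : V → ℝ) :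
    mZ s t b m g = mZ (fun e => σ.symm (s (τ e))) (fun e => σ.symm (t (τ e))) (fun e => b (τ e))
      (fun x => m (σ x)) (fun x => g (σ x)) := by
  unfold mZ
  rw [← (Equiv.arrowCongr σ (Equiv.refl ℤ)).tsum_eq]
  refine tsum_congr fun h => ?_
  have h1 : ∀ x : V', (Equiv.arrowCongr σ (Equiv.refl ℤ)) h (σ x) = h x := by
    intro x
    simp [Equiv.arrowCongr]
  congr 1
  · unfold W
    rw [← Equiv.prod_comp τ]
    refine Finset.prod_congr rfl fun e _ => ?_
    congr 1
  · congr 1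
    · unfold mg
      rw [← Equiv.sum_comp σ]
      simp only [h1]
    · unfold li
      rw [← Equiv.sum_comp σ]
      simp only [h1]

end equiv

section emb

variable {V E V0 E0 : Type} [Fintype V] [Fintype E] [Fintype V0] [Fintype E0]

/-- **Comparison with an embedded connected graph.** -/
theorem comp_emb {s t : E → V} {s0 t0 : E0 → V0} {ι : V0 → V} (hι : Function.Injective ι)
    {j : E0 → E} (hj : Function.Injective j) (hs : ∀ e, s (j e) = ι (s0 e))
    (ht : ∀ e, t (j e) = ι (t0 e)) (hc : Conn s0 t0) (o : V0) {b : E → ℝ} (hb : ∀ e, 0 ≤ b e)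
    {m : V → ℝ} (hm : ∀ x, 0 < m x) {g : V → ℝ} (hg0 : ∀ x, x ∉ Set.range ι → g x = 0)
    (hg : ∑ v, g (ι v) = 0) :
    mZ s t b m g * T1.H910.ZZ s0 t0 (fun e => b (j e)) {o} (fun _ => 1) ≤
      T1.H910.ZZ s0 t0 (fun e => b (j e)) {o} (fun h => Real.exp (li (fun v => g (ι v)) h)) *
        mZ s t b m 0 := by
  classical
  set σ : V0 ⊕ ((Set.range ι)ᶜ : Set V) ≃ V :=
    (Equiv.sumCongr (Equiv.ofInjective ι hι) (Equiv.refl _)).trans
      (Equiv.Set.sumCompl (Set.range ι)) with hσ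
  set τ : E0 ⊕ ((Set.range j)ᶜ : Set E) ≃ E :=
    (Equiv.sumCongr (Equiv.ofInjective j hj) (Equiv.refl _)).trans
      (Equiv.Set.sumCompl (Set.range j)) with hτ
  have σl : ∀ v, σ (Sum.inl v) = ι v := fun v => by simp [hσ]
  have σr : ∀ x, σ (Sum.inr x) = x.1 := fun x => by simp [hσ]
  have τl : ∀ e, τ (Sum.inl e) = j e := fun e => by simp [hτ]
  have h1 := comp_sum (s := fun e => σ.symm (s (τ e))) (t := fun e => σ.symm (t (τ e)))
    (s0 := s0) (t0 := t0)
    (fun e => by rw [τl, hs, ← σl, Equiv.symm_apply_apply])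
    (fun e => by rw [τl, ht, ← σl, Equiv.symm_apply_apply])
    (monoStmt _ _) hc o (b := fun e => b (τ e)) (fun e => hb _) (m := fun x => m (σ x))
    (fun x => hm _) (g0 := fun v => g (ι v)) hg
  have e1 : (Sum.elim (fun v => g (ι v)) 0 : V0 ⊕ ((Set.range ι)ᶜ : Set V) → ℝ) =
      fun x => g (σ x) := by
    funext x
    rcases x with x | x
    · rw [σl]; rfl
    · rw [σr, hg0 _ x.2]; rfl
  have e2 : (0 : V0 ⊕ ((Set.range ι)ᶜ : Set V) → ℝ) = fun x => (0 : V → ℝ) (σ x) := rfl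
  rw [e1, e2, ← mZ_equiv σ τ s t b m g, ← mZ_equiv σ τ s t b m 0] at h1
  simpa only [τl] using h1

/-- second moment of a linear functional (not normalised) -/
noncomputable def M2 (s t : E → V) (b : E → ℝ) (m g : V → ℝ) : ℝ :=
  ∑' h : V → ℤ, W (grd s t) b h * (mg m h * (li g h) ^ 2)

lemma sq_le_cosh (x : ℝ) : x ^ 2 ≤ 2 * (Real.cosh x - 1) := by
  have h := Real.cosh_two_mul (x / 2)
  rw [show 2 * (x / 2) = x by ring] at h
  have h2 := Real.cosh_sq (x / 2)
  have h3 : x ^ 2 / 4 ≤ Real.sinh (x / 2) ^ 2 := by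
    have h4 : |x / 2| ≤ |Real.sinh (x / 2)| := by
      rcases le_total 0 (x / 2) with h5 | h5
      · rw [abs_of_nonneg h5, abs_of_nonneg (Real.sinh_nonneg_iff.2 h5)]
        exact Real.self_le_sinh_iff.2 h5
      · rw [abs_of_nonpos h5, abs_of_nonpos (Real.sinh_nonpos_iff.2 h5)]
        exact neg_le_neg (Real.sinh_le_self_iff.2 h5)
    have h6 := pow_le_pow_left₀ (abs_nonneg _) h4 2
    rw [sq_abs, sq_abs] at h6
    nlinarith
  nlinarith

lemma M2_summable (s t : E → V) {b : E → ℝ} (hb : ∀ e, 0 ≤ b e) {m : V → ℝ} (hm : ∀ x, 0 < m x)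
    (g : V → ℝ) : Summable fun h : V → ℤ => W (grd s t) b h * (mg m h * (li g h) ^ 2) := by
  have h0 := H708.bw_summable (D := grd s t) (X := ∅) hb hm (H708.gr_cosh g)
  refine Summable.of_nonneg_of_le (fun h => mul_nonneg (W_nonneg hb _)
    (mul_nonneg (mg_pos _ _).le (sq_nonneg _))) (fun h => ?_) (h0.mul_left 2)
  have e : |H708.bw (grd s t) b m ∅ h * Real.cosh (H708.lf g h)| =
      W (grd s t) b h * mg m h * Real.cosh (li g h) := by
    rw [bw_eq, ← li_eq_lf, abs_of_nonneg (mul_nonneg (mul_nonneg (W_nonneg hb _) (mg_pos _ _).le)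
      (Real.cosh_pos _).le)]
  rw [e]
  have h1 := sq_le_cosh (li g h)
  have h2 : (li g h) ^ 2 ≤ 2 * Real.cosh (li g h) := by linarith
  have h3 := mul_le_mul_of_nonneg_left h2 (mul_nonneg (W_nonneg (D := grd s t) hb h) (mg_pos m h).le)
  calc W (grd s t) b h * (mg m h * (li g h) ^ 2)
      = W (grd s t) b h * mg m h * (li g h) ^ 2 := by ring
    _ ≤ W (grd s t) b h * mg m h * (2 * Real.cosh (li g h)) := h3
    _ = _ := by ring

/-- second moments are bounded by exponential moments -/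
lemma M2_le (s t : E → V) {b : E → ℝ} (hb : ∀ e, 0 ≤ b e) {m : V → ℝ} (hm : ∀ x, 0 < m x)
    (g : V → ℝ) : M2 s t b m g ≤ 2 * (mZ s t b m g - mZ s t b m 0) := by
  rw [mZ_eq_SS s t hb hm, mZ_zero_SS]
  unfold M2 H708.SS
  have h0 := (H708.bw_summable (D := grd s t) (X := ∅) hb hm (H708.gr_cosh g)).of_abs
  have h1 := (H708.bw_summable (D := grd s t) (X := ∅) hb hm (H708.Gr.one (V := V))).of_abs
  rw [← h0.tsum_sub h1, ← tsum_mul_left]
  refine (M2_summable s t hb hm g).tsum_le_tsum (fun h => ?_) ((h0.sub h1).mul_left 2)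
  rw [bw_eq]
  have h2 := mul_le_mul_of_nonneg_left (sq_le_cosh (li g h))
    (mul_nonneg (W_nonneg (D := grd s t) hb h) (mg_pos m h).le)
  calc W (grd s t) b h * (mg m h * (li g h) ^ 2)
      = W (grd s t) b h * mg m h * (li g h) ^ 2 := by ring
    _ ≤ W (grd s t) b h * mg m h * (2 * (Real.cosh (li g h) - 1)) := h2
    _ = _ := by rw [li_eq_lf]; ring

end emb

end Vale.Agent.P159.TM.H694
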