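import Vale.Agent.P159.R2.H254.Link
import Vale.Agent.P159.TM.H694.Emb

/-!
Row CONT. On a fixed finite graph with masses the covariances depend continuously on the coupling.
-/

open MeasureTheory Filter Topology

namespace Vale.Agent.P159.TM.H694

open Vale.Agent.P159 Vale.Agent.P159.H353 Vale.Agent.P159.T1.H934 Vale.Agent.P159.T1.H910
  Vale.Agent.P159.R2.H254

lemma bes_cont (n : ℤ) : Continuous fun b : ℝ => bes b n := by
  unfold bes
  refine continuous_const.mul ?_
  exact intervalIntegral.continuous_parametric_intervalIntegral_of_continuous' (by fun_prop) _ _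

lemma tendsto_wI {b0 : ℝ} (hb : 0 < b0) (n : ℤ) :
    Tendsto (fun b : ℝ => wI b n) (𝓝 b0) (𝓝 (wI b0 n)) := by
  have h1 := (bes_cont n).tendsto b0
  rw [bes_eq hb.le] at h1
  refine h1.congr' ?_
  filter_upwards [eventually_gt_nhds hb] with b hb'
  exact bes_eq hb'.le n

section cont

variable {V E : Type} [Fintype V] [Fintype E]

/-- unnormalised expectation -/
noncomputable def uE (s t : E → V) (b : ℝ) (m : V → ℝ) (F : (V → ℤ) → ℝ) : ℝ :=
  ∑' h : V → ℤ, W (grd s t) (fun _ => b) h * (mg m h * F h)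

lemma uE_summable (s t : E → V) {b : ℝ} (hb : 0 ≤ b) {m : V → ℝ} (hm : ∀ x, 0 < m x)
    {F : (V → ℤ) → ℝ} (hF : H708.Gr F) :
    Summable fun h : V → ℤ => |W (grd s t) (fun _ => b) h * (mg m h * F h)| := by
  refine (H708.bw_summable (D := grd s t) (X := ∅) (J := fun _ => b) (fun _ => hb) hm hF).congr
    fun h => ?_
  rw [bw_eq, mul_assoc]

lemma tendsto_uE (s t : E → V) {b0 : ℝ} (hb : 0 < b0) {m : V → ℝ} (hm : ∀ x, 0 < m x)
    {F : (V → ℤ) → ℝ} (hF : H708.Gr F) :
    Tendsto (fun b => uE s t b m F) (𝓝 b0) (𝓝 (uE s t b0 m F)) := by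
  have hsm : Summable fun h : V → ℤ => |mg m h * F h| := by
    refine (H708.summable_ga_mul hm hF).congr fun h => ?_
    rw [mg_eq_ga]
  unfold uE
  refine tendsto_tsum_of_dominated_convergence
    (bound := fun h => (wI b0 0 + 1) ^ Fintype.card E * |mg m h * F h|) (hsm.mul_left _)
    (fun h => ?_) ?_
  · refine Tendsto.mul_const _ ?_
    unfold W
    exact tendsto_finsetProd _ fun e _ => tendsto_wI hb _
  · have h1 : ∀ᶠ b in 𝓝 b0, wI b 0 < wI b0 0 + 1 :=
      (tendsto_wI hb 0).eventually (gt_mem_nhds (by linarith))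
    filter_upwards [h1, eventually_gt_nhds hb] with b hb1 hb2 h
    rw [Real.norm_eq_abs, abs_mul, abs_of_nonneg (W_nonneg (D := grd s t) (fun _ => hb2.le) h)]
    refine mul_le_mul_of_nonneg_right ?_ (abs_nonneg _)
    refine (W_le (fun _ => hb2.le) _ h).trans ?_
    rw [Finset.prod_const, Finset.card_univ]
    exact pow_le_pow_left₀ (wI_nonneg hb2.le 0) hb1.le _

lemma gr_hh (x y : V) : H708.Gr fun h : V → ℤ => (h x : ℝ) * (h y : ℝ) := by
  classical
  have e : ∀ (x : V) (h : V → ℤ), H708.lf (Pi.single x (1 : ℝ)) h = (h x : ℝ) := by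
    intro x h
    unfold H708.lf
    rw [Finset.sum_eq_single x]
    · simp
    · intro y _ hy
      rw [Pi.single_eq_of_ne hy, zero_mul]
    · intro hx
      exact absurd (Finset.mem_univ x) hx
  have h1 := (H708.gr_lf (Pi.single x (1 : ℝ))).mul (H708.gr_lf (Pi.single y (1 : ℝ)))
  simpa only [e] using h1

lemma uE_one (s t : E → V) (b : ℝ) (m : V → ℝ) :
    uE s t b m (fun _ => 1) = mZ s t (fun _ => b) m 0 := by
  unfold uE mZ
  refine tsum_congr fun h => ?_
  simp [li]

/-- covariances -/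
noncomputable def cv (s t : E → V) (b : ℝ) (m : V → ℝ) (x y : V) : ℝ :=
  uE s t b m (fun h => (h x : ℝ) * (h y : ℝ)) / mZ s t (fun _ => b) m 0

theorem tendsto_cv (s t : E → V) {b0 : ℝ} (hb : 0 < b0) {m : V → ℝ} (hm : ∀ x, 0 < m x)
    (x y : V) : Tendsto (fun b => cv s t b m x y) (𝓝 b0) (𝓝 (cv s t b0 m x y)) := by
  unfold cv
  simp only [← uE_one]
  refine (tendsto_uE s t hb hm (gr_hh x y)).div (tendsto_uE s t hb hm (H708.Gr.one)) ?_
  rw [uE_one]
  exact (mZ_pos s t (fun _ => hb.le) hm 0).ne'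

/-- variances in terms of covariances -/
theorem var_eq (s t : E → V) {b : ℝ} (hb : 0 ≤ b) {m : V → ℝ} (hm : ∀ x, 0 < m x) (u : V → ℝ) :
    M2 s t (fun _ => b) m u / mZ s t (fun _ => b) m 0 = ∑ x, ∑ y, u x * u y * cv s t b m x y := by
  have h1 : M2 s t (fun _ => b) m u =
      ∑ x, ∑ y, u x * u y * uE s t b m (fun h => (h x : ℝ) * (h y : ℝ)) := by
    unfold M2 uE
    have hs : ∀ x y : V, Summable fun h : V → ℤ => u x * u y *
        (W (grd s t) (fun _ => b) h * (mg m h * ((h x : ℝ) * (h y : ℝ)))) := fun x y =>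
      (uE_summable s t hb hm (gr_hh x y)).of_abs.mul_left _
    simp only [← tsum_mul_left]
    have e2 : ∀ x : V, ∑ y, ∑' h : V → ℤ, u x * u y *
        (W (grd s t) (fun _ => b) h * (mg m h * ((h x : ℝ) * (h y : ℝ)))) =
        ∑' h : V → ℤ, ∑ y, u x * u y *
        (W (grd s t) (fun _ => b) h * (mg m h * ((h x : ℝ) * (h y : ℝ)))) := fun x =>
      (Summable.tsum_finsetSum fun y _ => hs x y).symm
    rw [Finset.sum_congr rfl fun x _ => e2 x,
      ← Summable.tsum_finsetSum fun x _ => summable_sum fun y _ => hs x y]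
    refine tsum_congr fun h => ?_
    unfold li
    rw [pow_two, Finset.sum_mul_sum, Finset.mul_sum, Finset.mul_sum]
    refine Finset.sum_congr rfl fun x _ => ?_
    rw [Finset.mul_sum, Finset.mul_sum]
    exact Finset.sum_congr rfl fun y _ => by ring
  rw [h1, Finset.sum_div]
  refine Finset.sum_congr rfl fun x _ => ?_
  rw [Finset.sum_div]
  refine Finset.sum_congr rfl fun y _ => ?_
  unfold cv
  rw [mul_div_assoc]

/-- **Openness**: the variance at a nearby coupling is not smaller than the variance minus a small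
multiple of `|u|²`. -/
theorem cont_var (s t : E → V) {b0 : ℝ} (hb : 0 < b0) {m : V → ℝ} (hm : ∀ x, 0 < m x)
    {η : ℝ} (hη : 0 < η) : ∀ᶠ b in 𝓝 b0, ∀ u : V → ℝ,
      M2 s t (fun _ => b0) m u / mZ s t (fun _ => b0) m 0 - η * ∑ x, u x ^ 2 ≤
        M2 s t (fun _ => b) m u / mZ s t (fun _ => b) m 0 := by
  have h1 : Tendsto (fun b => ∑ x, ∑ y, |cv s t b m x y - cv s t b0 m x y|) (𝓝 b0) (𝓝 0) := by
    have h2 : Tendsto (fun b => ∑ x : V, ∑ y : V, |cv s t b m x y - cv s t b0 m x y|) (𝓝 b0)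
        (𝓝 (∑ x : V, ∑ y : V, |cv s t b0 m x y - cv s t b0 m x y|)) :=
      tendsto_finsetSum _ fun x _ => tendsto_finsetSum _ fun y _ =>
        ((tendsto_cv s t hb hm x y).sub_const _).abs
    simpa using h2
  filter_upwards [h1.eventually (gt_mem_nhds hη), eventually_gt_nhds hb] with b hb1 hb2 u
  rw [var_eq s t hb.le hm, var_eq s t hb2.le hm, sub_le_iff_le_add, ← sub_le_iff_le_add',
    ← Finset.sum_sub_distrib]
  simp only [← Finset.sum_sub_distrib]
  have h3 : ∀ x : V, |u x| ^ 2 ≤ ∑ x, u x ^ 2 := fun x => by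
    rw [sq_abs]
    exact Finset.single_le_sum (f := fun x => u x ^ 2) (fun _ _ => sq_nonneg _) (Finset.mem_univ x)
  have h0 : 0 ≤ ∑ x : V, u x ^ 2 := Finset.sum_nonneg fun _ _ => sq_nonneg _
  have h4 : ∀ x y : V, u x * u y * cv s t b0 m x y - u x * u y * cv s t b m x y ≤
      |cv s t b m x y - cv s t b0 m x y| * ∑ x, u x ^ 2 := by
    intro x y
    have h5 : |u x| * |u y| ≤ ∑ x, u x ^ 2 := by
      nlinarith [h3 x, h3 y, sq_nonneg (|u x| - |u y|)]
    calc u x * u y * cv s t b0 m x y - u x * u y * cv s t b m x y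
        = -(u x * u y * (cv s t b m x y - cv s t b0 m x y)) := by ring
      _ ≤ |u x * u y * (cv s t b m x y - cv s t b0 m x y)| := neg_le_abs _
      _ = |cv s t b m x y - cv s t b0 m x y| * (|u x| * |u y|) := by
        rw [abs_mul, abs_mul]; ring
      _ ≤ _ := mul_le_mul_of_nonneg_left h5 (abs_nonneg _)
  calc ∑ x, ∑ y, (u x * u y * cv s t b0 m x y - u x * u y * cv s t b m x y)
      ≤ ∑ x, ∑ y, |cv s t b m x y - cv s t b0 m x y| * ∑ x, u x ^ 2 :=
        Finset.sum_le_sum fun x _ => Finset.sum_le_sum fun y _ => h4 x y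
    _ = (∑ x, ∑ y, |cv s t b m x y - cv s t b0 m x y|) * ∑ x, u x ^ 2 := by
        simp only [Finset.sum_mul]
    _ ≤ η * ∑ x, u x ^ 2 := mul_le_mul_of_nonneg_right hb1.le h0

end cont

end Vale.Agent.P159.TM.H694
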