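import Vale.Agent.P159.TM.H694.Blk

/-!
Row GLUE. The test function on the torus: size and Dirichlet energy.
-/

open MeasureTheory Filter Topology

namespace Vale.Agent.P159.TM.H694

open Vale.Agent.P159 Vale.Agent.P159.R2.H254

/-- discrete orthogonality -/
lemma sum_cos {n k : ℕ} (hk : 0 < k) (hkn : k < n) :
    ∑ i ∈ Finset.range n, Real.cos (2 * Real.pi * k * (((i : ℝ) + 1 / 2) / n)) = 0 := by
  have hn : (0 : ℝ) < n := by exact_mod_cast (hk.trans hkn)
  have hk' : (0 : ℝ) < k := by exact_mod_cast hk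
  have hkn' : (k : ℝ) < n := by exact_mod_cast hkn
  set θ : ℝ := 2 * Real.pi * k / n with hθ
  have h1 : ∀ i : ℕ, 2 * Real.sin (θ / 2) * Real.cos (2 * Real.pi * k * (((i : ℝ) + 1 / 2) / n)) =
      Real.sin (θ * ((i + 1 : ℕ) : ℝ)) - Real.sin (θ * (i : ℝ)) := by
    intro i
    have e : 2 * Real.pi * k * (((i : ℝ) + 1 / 2) / n) = θ * ((i : ℝ) + 1 / 2) := by
      rw [hθ]; ring
    rw [e, Real.sin_sub_sin]
    congr 2
    · congr 1
      push_cast
      ring
    · push_cast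
      ring
  have h2 : ∑ i ∈ Finset.range n, (Real.sin (θ * ((i + 1 : ℕ) : ℝ)) - Real.sin (θ * (i : ℝ))) =
      0 := by
    rw [Finset.sum_range_sub (fun i : ℕ => Real.sin (θ * (i : ℝ)))]
    have e : θ * (n : ℝ) = ((2 * k : ℕ) : ℝ) * Real.pi := by
      rw [hθ]; push_cast; field_simp
    rw [e, Real.sin_nat_mul_pi]
    simp
  have h3 : 0 < Real.sin (θ / 2) := by
    apply Real.sin_pos_of_pos_of_lt_pi
    · rw [hθ]; positivity
    · rw [hθ, div_div, div_lt_iff₀ (by positivity)]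
      nlinarith [Real.pi_pos, mul_lt_mul_of_pos_left hkn' Real.pi_pos]
  have h4 : 2 * Real.sin (θ / 2) * ∑ i ∈ Finset.range n,
      Real.cos (2 * Real.pi * k * (((i : ℝ) + 1 / 2) / n)) = 0 := by
    rw [Finset.mul_sum, Finset.sum_congr rfl fun i _ => h1 i, h2]
  exact (mul_eq_zero.1 h4).resolve_left (by positivity)

lemma sq_pf (x : ℝ) : pf x ^ 2 = 1 - 1 / 2 * Real.cos (2 * Real.pi * (1 : ℕ) * x) -
    Real.cos (2 * Real.pi * (2 : ℕ) * x) + 1 / 2 * Real.cos (2 * Real.pi * (3 : ℕ) * x) := by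
  unfold pf
  set c := Real.cos (Real.pi * x) with hc
  have e3 : Real.cos (3 * Real.pi * x) = 4 * c ^ 3 - 3 * c := by
    rw [show 3 * Real.pi * x = 3 * (Real.pi * x) by ring, Real.cos_three_mul]
  have e2 : Real.cos (2 * Real.pi * (1 : ℕ) * x) = 2 * c ^ 2 - 1 := by
    rw [show 2 * Real.pi * (1 : ℕ) * x = 2 * (Real.pi * x) by push_cast; ring, Real.cos_two_mul]
  have e4 : Real.cos (2 * Real.pi * (2 : ℕ) * x) = 2 * (2 * c ^ 2 - 1) ^ 2 - 1 := by
    rw [show 2 * Real.pi * (2 : ℕ) * x = 2 * (2 * (Real.pi * x)) by push_cast; ring,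
      Real.cos_two_mul, Real.cos_two_mul]
  have e6 : Real.cos (2 * Real.pi * (3 : ℕ) * x) = 2 * (4 * c ^ 3 - 3 * c) ^ 2 - 1 := by
    rw [show 2 * Real.pi * (3 : ℕ) * x = 2 * (3 * (Real.pi * x)) by push_cast; ring,
      Real.cos_two_mul, Real.cos_three_mul]
  rw [e3, e2, e4, e6]
  ring

lemma sq_pg (x : ℝ) : pg x ^ 2 = 3 / 2 - 2 * Real.cos (2 * Real.pi * (1 : ℕ) * x) +
    1 / 2 * Real.cos (2 * Real.pi * (2 : ℕ) * x) := by
  unfold pg
  have e4 : Real.cos (2 * Real.pi * (2 : ℕ) * x) = 2 * Real.cos (2 * Real.pi * x) ^ 2 - 1 := by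
    rw [show 2 * Real.pi * (2 : ℕ) * x = 2 * (2 * Real.pi * x) by push_cast; ring,
      Real.cos_two_mul]
  rw [e4]
  push_cast
  rw [mul_one]
  ring

lemma sum_sq_pf {n : ℕ} (hn : 4 ≤ n) :
    ∑ i ∈ Finset.range n, pf (((i : ℝ) + 1 / 2) / n) ^ 2 = n := by
  simp only [sq_pf, Finset.sum_add_distrib, Finset.sum_sub_distrib, ← Finset.mul_sum]
  rw [sum_cos (by norm_num) (by omega), sum_cos (by norm_num) (by omega),
    sum_cos (by norm_num) (by omega)]
  simp

lemma sum_sq_pg {n : ℕ} (hn : 4 ≤ n) :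
    ∑ i ∈ Finset.range n, pg (((i : ℝ) + 1 / 2) / n) ^ 2 = 3 / 2 * n := by
  simp only [sq_pg, Finset.sum_add_distrib, Finset.sum_sub_distrib, ← Finset.mul_sum]
  rw [sum_cos (by norm_num) (by omega), sum_cos (by norm_num) (by omega)]
  simp
  ring

lemma cos_lip (a x y : ℝ) (ha : 0 ≤ a) : |Real.cos (a * x) - Real.cos (a * y)| ≤ a * |x - y| := by
  have h1 := Real.abs_cos_sub_cos_le (a * x) (a * y)
  rw [← mul_sub, abs_mul, abs_of_nonneg ha] at h1
  exact h1

lemma pf_lip (x y : ℝ) : |pf x - pf y| ≤ 4 * Real.pi * |x - y| := by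
  have h1 := cos_lip Real.pi x y Real.pi_pos.le
  have h2 := cos_lip (3 * Real.pi) x y (by positivity)
  have h3 : pf x - pf y = (Real.cos (Real.pi * x) - Real.cos (Real.pi * y)) -
      (Real.cos (3 * Real.pi * x) - Real.cos (3 * Real.pi * y)) := by unfold pf; ring
  rw [h3]
  refine (abs_sub _ _).trans ?_
  linarith

lemma pg_lip (x y : ℝ) : |pg x - pg y| ≤ 4 * Real.pi * |x - y| := by
  have h1 := cos_lip (2 * Real.pi) x y (by positivity)
  have h3 : pg x - pg y = -(Real.cos (2 * Real.pi * x) - Real.cos (2 * Real.pi * y)) := by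
    unfold pg; ring
  rw [h3, abs_neg]
  refine h1.trans (mul_le_mul_of_nonneg_right ?_ (abs_nonneg _))
  linarith [Real.pi_pos]

lemma pf_zero : pf 0 = 0 := by simp [pf]

lemma pg_zero : pg 0 = 0 := by simp [pg]

lemma pf_one : pf 1 = 0 := by
  have := pf_rev 0
  rw [sub_zero, pf_zero, neg_zero] at this
  exact this

lemma pg_one : pg 1 = 0 := by simp [pg]

section zmod

variable {N : ℕ} [NeZero N]

lemma sum_zmod (ψ : ℕ → ℝ) : ∑ r : ZMod N, ψ r.val = ∑ i ∈ Finset.range N, ψ i := by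
  obtain ⟨k, rfl⟩ := Nat.exists_eq_succ_of_ne_zero (NeZero.ne N)
  exact Fin.sum_univ_eq_sum_range ψ (k + 1)

/-- extension of a profile by zero -/
noncomputable def ex (n : ℕ) (φ : ℝ → ℝ) (r : ZMod N) : ℝ :=
  if r.val < n then φ (((r.val : ℝ) + 1 / 2) / n) else 0

lemma sum_ex {n : ℕ} (hn : n ≤ N) (φ : ℝ → ℝ) :
    ∑ r : ZMod N, ex n φ r ^ 2 = ∑ i ∈ Finset.range n, φ (((i : ℝ) + 1 / 2) / n) ^ 2 := by
  have h1 := sum_zmod (N := N) (fun i => if i < n then φ (((i : ℝ) + 1 / 2) / n) ^ 2 else 0)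
  have h2 : ∀ r : ZMod N, ex n φ r ^ 2 =
      if r.val < n then φ (((r.val : ℝ) + 1 / 2) / n) ^ 2 else 0 := by
    intro r
    unfold ex
    split_ifs
    · rfl
    · ring
  simp only [h2]
  rw [h1, ← Finset.sum_filter]
  refine Finset.sum_congr ?_ fun _ _ => rfl
  ext i
  simp only [Finset.mem_filter, Finset.mem_range]
  omega

lemma val_succ (r : ZMod N) : (r + 1).val = r.val + 1 ∨ ((r + 1).val = 0 ∧ r.val + 1 = N) := by
  rcases lt_or_ge (r.val + 1) N with h | h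
  · left
    have h1 : (1 : ZMod N).val = 1 ∨ N = 1 := by
      rcases Nat.lt_or_ge 1 N with h2 | h2
      · left
        have : Fact (1 < N) := ⟨h2⟩
        exact ZMod.val_one N
      · right
        have := NeZero.pos N
        omega
    rcases h1 with h1 | h1
    · rw [ZMod.val_add_of_lt (by rw [h1]; exact h), h1]
    · omega
  · right
    have h3 := r.val_lt
    have h4 : r.val + 1 = N := by omega
    refine ⟨?_, h4⟩
    have h5 : ((r.val + 1 : ℕ) : ZMod N) = r + 1 := by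
      push_cast
      rw [ZMod.natCast_zmod_val]
    rw [← h5, h4, ZMod.natCast_self, ZMod.val_zero]

/-- increments of the extension -/
lemma ex_diff {n : ℕ} (hn : 0 < n) (hnN : n ≤ N) {φ : ℝ → ℝ} {c : ℝ} (hc : 0 ≤ c)
    (hφ : ∀ x y, |φ x - φ y| ≤ c * |x - y|) (h0 : φ 0 = 0) (h1 : φ 1 = 0) (r : ZMod N) :
    |ex n φ (r + 1) - ex n φ r| ≤ c / n := by
  have hn' : (0 : ℝ) < n := by exact_mod_cast hn
  have hend : |φ (((0 : ℕ) + 1 / 2 : ℝ) / n)| ≤ c / n / 2 := by
    have := hφ (((0 : ℕ) + 1 / 2 : ℝ) / n) 0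
    rw [h0, sub_zero, sub_zero, abs_of_pos (a := ((0 : ℕ) + 1 / 2 : ℝ) / n)
      (by positivity)] at this
    refine this.trans (le_of_eq ?_)
    push_cast
    ring
  have hend2 : ∀ v : ℕ, v + 1 = n → |φ (((v : ℝ) + 1 / 2) / n)| ≤ c / n / 2 := by
    intro v hv
    have hv' : (v : ℝ) = n - 1 := by rw [← hv]; push_cast; ring
    have := hφ (((v : ℝ) + 1 / 2) / n) 1
    rw [h1, sub_zero] at this
    have e : |((v : ℝ) + 1 / 2) / n - 1| = 1 / n / 2 := by
      rw [hv', abs_of_nonpos]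
      · field_simp
        ring
      · rw [sub_nonpos, div_le_one hn']
        linarith
    rw [e] at this
    refine this.trans (le_of_eq ?_)
    ring
  have hcn : 0 ≤ c / n := by positivity
  rcases val_succ r with h | ⟨h, h'⟩
  · unfold ex
    rw [h]
    split_ifs with h2 h3 h3
    · refine (hφ _ _).trans (le_of_eq ?_)
      have e : ((((r.val + 1 : ℕ) : ℝ) + 1 / 2) / n - (((r.val : ℕ) : ℝ) + 1 / 2) / n) = 1 / n := by
        push_cast
        field_simp
        ring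
      rw [e, abs_of_pos (by positivity)]
      ring
    · omega
    · rw [zero_sub, abs_neg]
      have := hend2 r.val (by omega)
      linarith
    · simpa using hcn
  · unfold ex
    rw [h, if_pos hn]
    split_ifs with h3
    · refine (abs_sub _ _).trans ?_
      have := hend2 r.val (by omega)
      linarith
    · rw [sub_zero]
      linarith

lemma card_lt {n : ℕ} (hnN : n ≤ N) : ∑ r : ZMod N, (if r.val < n then (1 : ℝ) else 0) = n := by
  rw [sum_zmod (fun i => if i < n then (1 : ℝ) else 0), ← Finset.sum_filter]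
  have : (Finset.range N).filter (fun i => i < n) = Finset.range n := by
    ext i
    simp only [Finset.mem_filter, Finset.mem_range]
    omega
  rw [this]
  simp

/-- Dirichlet energy of the extension -/
lemma sum_ex_diff {n : ℕ} (hn : 0 < n) (hnN : n ≤ N) {φ : ℝ → ℝ} {c : ℝ} (hc : 0 ≤ c)
    (hφ : ∀ x y, |φ x - φ y| ≤ c * |x - y|) (h0 : φ 0 = 0) (h1 : φ 1 = 0) :
    ∑ r : ZMod N, (ex n φ (r + 1) - ex n φ r) ^ 2 ≤ 2 * c ^ 2 / n := by
  have hn' : (0 : ℝ) < n := by exact_mod_cast hn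
  have h2 : ∀ r : ZMod N, (ex n φ (r + 1) - ex n φ r) ^ 2 ≤
      (c / n) ^ 2 * (if r.val < n then (1 : ℝ) else 0) +
        (c / n) ^ 2 * (if (r + 1).val < n then (1 : ℝ) else 0) := by
    intro r
    have h3 : (ex n φ (r + 1) - ex n φ r) ^ 2 ≤ (c / n) ^ 2 := by
      rw [← sq_abs]
      exact pow_le_pow_left₀ (abs_nonneg _) (ex_diff hn hnN hc hφ h0 h1 r) 2
    by_cases a1 : r.val < n
    · rw [if_pos a1]
      have : 0 ≤ (c / n) ^ 2 * (if (r + 1).val < n then (1 : ℝ) else 0) := by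
        split_ifs <;> simp <;> positivity
      linarith
    · rw [if_neg a1]
      by_cases a2 : (r + 1).val < n
      · rw [if_pos a2]; linarith
      · rw [if_neg a2]
        unfold ex
        rw [if_neg a1, if_neg a2]
        simp
  refine (Finset.sum_le_sum fun r _ => h2 r).trans ?_
  rw [Finset.sum_add_distrib, ← Finset.mul_sum, ← Finset.mul_sum, card_lt hnN]
  have h4 : ∑ r : ZMod N, (if (r + 1).val < n then (1 : ℝ) else 0) = n := by
    rw [← card_lt (N := N) hnN]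
    exact Equiv.sum_comp (Equiv.addRight (1 : ZMod N)) (fun r => if r.val < n then (1 : ℝ) else 0)
  rw [h4]
  apply le_of_eq
  field_simp
  ring

/-- the test function on the torus -/
noncomputable def tu (n : ℕ) (x : ZMod N × ZMod N) : ℝ := ex n pf x.1 * ex n pg x.2

lemma sum_tu_sq {n : ℕ} (hn : 4 ≤ n) (hnN : n ≤ N) :
    ∑ x : ZMod N × ZMod N, tu n x ^ 2 = 3 / 2 * (n : ℝ) ^ 2 := by
  unfold tu
  rw [Fintype.sum_prod_type]
  simp only [mul_pow, ← Finset.mul_sum, ← Finset.sum_mul]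
  rw [sum_ex hnN, sum_ex hnN, sum_sq_pf hn, sum_sq_pg hn]
  ring

lemma grad_tu {n : ℕ} (hn : 4 ≤ n) (hnN : n ≤ N) :
    ∑ x : ZMod N × ZMod N, ((tu n (x.1 + 1, x.2) - tu n x) ^ 2 +
      (tu n (x.1, x.2 + 1) - tu n x) ^ 2) ≤ 80 * Real.pi ^ 2 := by
  have hn' : (0 : ℝ) < n := by exact_mod_cast (by omega : 0 < n)
  have e1 : ∀ x : ZMod N × ZMod N, (tu n (x.1 + 1, x.2) - tu n x) ^ 2 +
      (tu n (x.1, x.2 + 1) - tu n x) ^ 2 =
      (ex n pf (x.1 + 1) - ex n pf x.1) ^ 2 * ex n pg x.2 ^ 2 +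
        ex n pf x.1 ^ 2 * (ex n pg (x.2 + 1) - ex n pg x.2) ^ 2 := by
    intro x
    unfold tu
    ring
  simp only [e1]
  rw [Finset.sum_add_distrib, Fintype.sum_prod_type, Fintype.sum_prod_type]
  simp only [← Finset.mul_sum, ← Finset.sum_mul]
  rw [sum_ex hnN, sum_ex hnN, sum_sq_pf hn, sum_sq_pg hn]
  have h1 := sum_ex_diff (N := N) (by omega : 0 < n) hnN (by positivity) pf_lip pf_zero pf_one
  have h2 := sum_ex_diff (N := N) (by omega : 0 < n) hnN (by positivity) pg_lip pg_zero pg_one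
  have h3 := mul_le_mul_of_nonneg_right h1 (show (0 : ℝ) ≤ 3 / 2 * n by positivity)
  have h4 := mul_le_mul_of_nonneg_left h2 (show (0 : ℝ) ≤ n by positivity)
  have e2 : 2 * (4 * Real.pi) ^ 2 / n * (3 / 2 * n) = 48 * Real.pi ^ 2 := by field_simp; ring
  have e3 : (n : ℝ) * (2 * (4 * Real.pi) ^ 2 / n) = 32 * Real.pi ^ 2 := by field_simp; ring
  rw [e2] at h3
  rw [e3] at h4
  linarith

end zmod

end Vale.Agent.P159.TM.H694
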