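import Vale.Agent.P159.TM.H764.Hyp
import Vale.Agent.P159.TM.H694.Emb
import Vale.Agent.P159.TM.H694.Prof

/-!
Row GLUE. The massive heights on the torus `ZMod N × ZMod N`, the embedded block, and the fact
that a one scale bound `QU` at all large scales is impossible below the critical point.
-/

open MeasureTheory Filter Topology

namespace Vale.Agent.P159.TM.H694

open Vale.Agent.P159 Vale.Agent.P159.H353 Vale.Agent.P159.T1.H934 Vale.Agent.P159.T1.H910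
  Vale.Agent.P159.R2.H254

section torus

variable {N : ℕ}

/-- initial vertex of the edge `(x, false) : x → x + (1,0)`, `(x, true) : x → x + (0,1)` -/
def tS (e : (ZMod N × ZMod N) × Bool) : ZMod N × ZMod N := e.1

/-- final vertex of an edge -/
def tT (e : (ZMod N × ZMod N) × Bool) : ZMod N × ZMod N :=
  if e.2 then (e.1.1, e.1.2 + 1) else (e.1.1 + 1, e.1.2)

/-- the block inside the torus -/
def bι (N L : ℕ) (x : Fa L) : ZMod N × ZMod N := ((x.1.val : ZMod N), (x.2.val : ZMod N))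

/-- its edges -/
def bj (N L : ℕ) : Eb L → (ZMod N × ZMod N) × Bool
  | Sum.inl p => (bι N L (p.1.castSucc, p.2), false)
  | Sum.inr p => (bι N L (p.1, p.2.castSucc), true)

/-- oriented edges of the block -/
def bs {L : ℕ} : Eb L → Fa L
  | Sum.inl p => (p.1.castSucc, p.2)
  | Sum.inr p => (p.1, p.2.castSucc)

/-- oriented edges of the block -/
def bt {L : ℕ} : Eb L → Fa L
  | Sum.inl p => (p.1.succ, p.2)
  | Sum.inr p => (p.1, p.2.succ)

lemma bι_inj {N L : ℕ} (h : L + 1 ≤ N) : Function.Injective (bι N L) := by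
  rintro ⟨i, j⟩ ⟨i', j'⟩ he
  simp only [bι, Prod.mk.injEq] at he
  have h1 := congrArg ZMod.val he.1
  have h2 := congrArg ZMod.val he.2
  rw [ZMod.val_cast_of_lt (by omega), ZMod.val_cast_of_lt (by omega)] at h1 h2
  exact Prod.ext (Fin.ext h1) (Fin.ext h2)

lemma bj_inj {N L : ℕ} (h : L + 1 ≤ N) : Function.Injective (bj N L) := by
  rintro (p | p) (q | q) he
  · have h1 := bι_inj h (Prod.mk.inj he).1
    simp only [Prod.mk.injEq, Fin.castSucc_inj] at h1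
    exact congrArg Sum.inl (Prod.ext h1.1 h1.2)
  · exact absurd (Prod.mk.inj he).2 (by simp)
  · exact absurd (Prod.mk.inj he).2 (by simp)
  · have h1 := bι_inj h (Prod.mk.inj he).1
    simp only [Prod.mk.injEq, Fin.castSucc_inj] at h1
    exact congrArg Sum.inr (Prod.ext h1.1 h1.2)

lemma bj_s (N L : ℕ) (e : Eb L) : tS (bj N L e) = bι N L (bs e) := by
  rcases e with p | p <;> rfl

lemma bj_t (N L : ℕ) (e : Eb L) : tT (bj N L e) = bι N L (bt e) := by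
  rcases e with p | p <;> simp [tT, bj, bι, bt]

lemma W_bs {L : ℕ} (b : Eb L → ℝ) (h : Fa L → ℤ) :
    W (grd (bs (L := L)) bt) b h = W (grd (blf (N := L)) brt) b h := by
  unfold W
  refine Finset.prod_congr rfl fun e _ => ?_
  rcases e with p | p
  · rfl
  · rw [← wI_neg]
    congr 1
    show -(h (bt (Sum.inr p)) - h (bs (Sum.inr p))) = h (brt (Sum.inr p)) - h (blf (Sum.inr p))
    simp only [bt, bs, brt, blf]
    ring

lemma ZZ_bs {L : ℕ} (b : ℝ) (f : (Fa L → ℤ) → ℝ) :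
    T1.H910.ZZ (bs (L := L)) bt (fun _ => b) {((0, 0) : Fa L)} f = bS L b f := by
  unfold bS T1.H910.ZZ
  refine tsum_congr fun h => ?_
  rw [W_bs]

lemma conn_bs (L : ℕ) : Conn (bs (L := L)) bt := by
  intro u v
  have h1 : ∀ x y, adjG (blf (N := L)) brt x y → adjG (bs (L := L)) bt x y := by
    rintro x y ⟨e, he⟩
    refine ⟨e, ?_⟩
    rcases e with p | p
    · exact he
    · rcases he with ⟨h1, h2⟩ | ⟨h1, h2⟩
      · exact Or.inr ⟨h2, h1⟩
      · exact Or.inl ⟨h2, h1⟩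
  have h2 := conn_blk L u v
  induction h2 with
  | refl => exact Relation.ReflTransGen.refl
  | tail _ h3 ih => exact ih.tail (h1 _ _ h3)

variable [NeZero N]

omit [NeZero N] in
lemma tu_bι {L : ℕ} (h : L + 1 ≤ N) (x : Fa L) : tu (N := N) (L + 1) (bι N L x) = ub L x := by
  unfold tu ex bι ub ctr
  simp only
  rw [ZMod.val_cast_of_lt (by omega), ZMod.val_cast_of_lt (by omega), if_pos (by omega),
    if_pos (by omega)]
  push_cast
  rfl

lemma tu_off {L : ℕ} (x : ZMod N × ZMod N) (hx : x ∉ Set.range (bι N L)) :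
    tu (L + 1) x = 0 := by
  by_contra hne
  apply hx
  unfold tu ex at hne
  have h1 : x.1.val < L + 1 := by
    by_contra h
    rw [if_neg h, zero_mul] at hne
    exact hne rfl
  have h2 : x.2.val < L + 1 := by
    by_contra h
    rw [if_neg h, mul_zero] at hne
    exact hne rfl
  refine ⟨(⟨x.1.val, h1⟩, ⟨x.2.val, h2⟩), ?_⟩
  unfold bι
  simp only
  rw [ZMod.natCast_zmod_val, ZMod.natCast_zmod_val]

/-- comparison of the torus with the block for the test function -/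
theorem torus_le {L : ℕ} (h : L + 1 ≤ N) {b : ℝ} (hb : 0 ≤ b) {m : ZMod N × ZMod N → ℝ}
    (hm : ∀ x, 0 < m x) (c : ℝ) :
    mZ (tS (N := N)) tT (fun _ => b) m (fun x => c * tu (L + 1) x) * (bS L b fun _ => 1) ≤
      (bS L b fun k => Real.exp (li (fun x => c * ub L x) k)) *
        mZ (tS (N := N)) tT (fun _ => b) m 0 := by
  have h1 := comp_emb (s := tS (N := N)) (t := tT) (bι_inj h) (bj_inj h) (bj_s N L) (bj_t N L)
    (conn_bs L) (0, 0) (b := fun _ => b) (fun _ => hb) hm (g := fun x => c * tu (L + 1) x)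
    (fun x hx => by rw [tu_off x hx, mul_zero])
    (by simp only [tu_bι h, ← Finset.mul_sum, sum_ub, mul_zero])
  simp only [tu_bι h] at h1
  rw [ZZ_bs, ZZ_bs] at h1
  exact h1

/-- **Below the critical point the one scale bound fails at large scales** (the variance form).
`K` is a constant, the block has side `K ξ`. -/
theorem glue_core {b : ℝ} (hb : 0 < b) (hc : b < bCrit) (A : ℝ) :
    ∃ X : ℕ, ∀ (ξ N : ℕ) [NeZero N], X ≤ ξ → X * ξ ≤ N → ∀ y a : ℝ, y ≤ 1 / 2 → a ≤ A →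
      ¬ ∀ u : ZMod N × ZMod N → ℝ,
        (1 - y) * (ξ : ℝ) ^ 2 * (∑ x, u x ^ 2) - a * (ξ : ℝ) ^ 4 *
          (∑ x, ((u (x.1 + 1, x.2) - u x) ^ 2 + (u (x.1, x.2 + 1) - u x) ^ 2)) ≤
        M2 (tS (N := N)) tT (fun _ => b) (fun _ => 1 / (ξ : ℝ) ^ 2) u /
          mZ (tS (N := N)) tT (fun _ => b) (fun _ => 1 / (ξ : ℝ) ^ 2) 0 := by
  -- the constant
  obtain ⟨K, hK⟩ := exists_nat_ge (4 + 2 * (80 * Real.pi ^ 2 * max A 0 + 1))
  have hA0 : 0 ≤ max A 0 := le_max_right _ _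
  have hK4 : (4 : ℝ) ≤ K := by nlinarith [Real.pi_pos, sq_nonneg Real.pi, mul_nonneg (mul_nonneg (by norm_num : (0:ℝ) ≤ 80) (sq_nonneg Real.pi)) hA0]
  have hK4' : 4 ≤ K := by exact_mod_cast hK4
  have hK2 : 80 * Real.pi ^ 2 * max A 0 + 1 ≤ 3 / 4 * (K : ℝ) ^ 2 := by
    nlinarith [mul_nonneg (mul_nonneg (by norm_num : (0:ℝ) ≤ 80) (sq_nonneg Real.pi)) hA0]
  -- the block
  have hlim := tendsto_blk hb hc ((K : ℝ) ^ 2)
  have hev : ∀ᶠ L : ℕ in atTop, bS L b (fun h => Real.exp (li (fun x =>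
      (K : ℝ) ^ 2 / ((L : ℝ) + 1) ^ 2 * ub L x) h)) / (bS L b fun _ => 1) < 5 / 4 :=
    hlim.eventually (gt_mem_nhds (by norm_num))
  obtain ⟨L0, hL0⟩ := eventually_atTop.1 hev
  refine ⟨max K (L0 + 1), fun ξ N _ hξ hN y a hy ha hu => ?_⟩
  have hξ1 : L0 + 1 ≤ ξ := (le_max_right _ _).trans hξ
  have hξ0 : 0 < ξ := by omega
  have hξ0' : (0 : ℝ) < ξ := by exact_mod_cast hξ0
  have hKN : K * ξ ≤ N := (Nat.mul_le_mul_right ξ (le_max_left _ _)).trans hN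
  have hn4 : 4 ≤ K * ξ := by nlinarith
  obtain ⟨L, hL⟩ : ∃ L, L + 1 = K * ξ := ⟨K * ξ - 1, by omega⟩
  have hLL0 : L0 ≤ L := by
    have : ξ ≤ K * ξ := Nat.le_mul_of_pos_left ξ (by omega)
    omega
  have hLN : L + 1 ≤ N := by omega
  have hLr : (L : ℝ) + 1 = K * ξ := by exact_mod_cast hL
  have hm : ∀ x : ZMod N × ZMod N, 0 < (fun _ => 1 / (ξ : ℝ) ^ 2 : ZMod N × ZMod N → ℝ) x :=
    fun _ => by positivity
  -- upper bound
  set Z0 := mZ (tS (N := N)) tT (fun _ => b) (fun _ => 1 / (ξ : ℝ) ^ 2) 0 with hZ0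
  have Z0pos : 0 < Z0 := mZ_pos _ _ (fun _ => hb.le) hm 0
  have h1 := torus_le hLN hb.le hm (1 / (ξ : ℝ) ^ 2)
  have hb1 := bS_one_pos L hb.le
  have h2 := hL0 L hLL0
  have hcoef : (K : ℝ) ^ 2 / ((L : ℝ) + 1) ^ 2 = 1 / (ξ : ℝ) ^ 2 := by
    rw [hLr]
    have : (K : ℝ) ≠ 0 := by positivity
    field_simp
  rw [hcoef, div_lt_iff₀ hb1] at h2
  have h3 : mZ (tS (N := N)) tT (fun _ => b) (fun _ => 1 / (ξ : ℝ) ^ 2)
      (fun x => 1 / (ξ : ℝ) ^ 2 * tu (L + 1) x) < 5 / 4 * Z0 := by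
    have h4 : mZ (tS (N := N)) tT (fun _ => b) (fun _ => 1 / (ξ : ℝ) ^ 2)
        (fun x => 1 / (ξ : ℝ) ^ 2 * tu (L + 1) x) * (bS L b fun _ => 1) <
        (5 / 4 * Z0) * (bS L b fun _ => 1) := by
      refine lt_of_le_of_lt h1 ?_
      calc _ < (5 / 4 * bS L b fun _ => 1) * Z0 := mul_lt_mul_of_pos_right h2 Z0pos
        _ = _ := by ring
    exact lt_of_mul_lt_mul_right h4 hb1.le
  have h5 := M2_le (tS (N := N)) tT (fun _ => hb.le) hm (fun x => 1 / (ξ : ℝ) ^ 2 * tu (L + 1) x)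
  have h6 : M2 (tS (N := N)) tT (fun _ => b) (fun _ => 1 / (ξ : ℝ) ^ 2)
      (fun x => 1 / (ξ : ℝ) ^ 2 * tu (L + 1) x) =
      (1 / (ξ : ℝ) ^ 2) ^ 2 * M2 (tS (N := N)) tT (fun _ => b) (fun _ => 1 / (ξ : ℝ) ^ 2)
        (tu (L + 1)) := by
    unfold M2
    rw [← tsum_mul_left]
    refine tsum_congr fun h => ?_
    have : li (fun x => 1 / (ξ : ℝ) ^ 2 * tu (L + 1) x) h = 1 / (ξ : ℝ) ^ 2 * li (tu (L + 1)) h := by
      unfold li
      rw [Finset.mul_sum]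
      exact Finset.sum_congr rfl fun x _ => by ring
    rw [this]
    ring
  have h7 : (1 / (ξ : ℝ) ^ 2) ^ 2 * (M2 (tS (N := N)) tT (fun _ => b) (fun _ => 1 / (ξ : ℝ) ^ 2)
        (tu (L + 1)) / Z0) < 1 / 2 := by
    rw [← mul_div_assoc, ← h6, div_lt_iff₀ Z0pos]
    linarith
  -- lower bound
  have h8 := hu (tu (L + 1))
  have h9 := sum_tu_sq (N := N) (n := L + 1) (by omega) hLN
  have h10 := grad_tu (N := N) (n := L + 1) (by omega) hLN
  rw [h9] at h8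
  have h11 : (1 / (ξ : ℝ) ^ 2) ^ 2 * ((1 - y) * (ξ : ℝ) ^ 2 * (3 / 2 * ((L + 1 : ℕ) : ℝ) ^ 2) -
      a * (ξ : ℝ) ^ 4 * (∑ x : ZMod N × ZMod N, ((tu (L + 1) (x.1 + 1, x.2) - tu (L + 1) x) ^ 2 +
        (tu (L + 1) (x.1, x.2 + 1) - tu (L + 1) x) ^ 2))) < 1 / 2 :=
    lt_of_le_of_lt (mul_le_mul_of_nonneg_left h8 (by positivity)) h7
  have h12 : (1 / (ξ : ℝ) ^ 2) ^ 2 * ((1 - y) * (ξ : ℝ) ^ 2 * (3 / 2 * ((L + 1 : ℕ) : ℝ) ^ 2) -
      a * (ξ : ℝ) ^ 4 * (∑ x : ZMod N × ZMod N, ((tu (L + 1) (x.1 + 1, x.2) - tu (L + 1) x) ^ 2 +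
        (tu (L + 1) (x.1, x.2 + 1) - tu (L + 1) x) ^ 2))) =
      (1 - y) * (3 / 2 * (K : ℝ) ^ 2) - a * (∑ x : ZMod N × ZMod N,
        ((tu (L + 1) (x.1 + 1, x.2) - tu (L + 1) x) ^ 2 +
        (tu (L + 1) (x.1, x.2 + 1) - tu (L + 1) x) ^ 2)) := by
    push_cast
    rw [hLr]
    field_simp
  rw [h12] at h11
  have hG0 : 0 ≤ ∑ x : ZMod N × ZMod N, ((tu (L + 1) (x.1 + 1, x.2) - tu (L + 1) x) ^ 2 +
        (tu (L + 1) (x.1, x.2 + 1) - tu (L + 1) x) ^ 2) :=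
    Finset.sum_nonneg fun x _ => by positivity
  have h13 : a * (∑ x : ZMod N × ZMod N, ((tu (L + 1) (x.1 + 1, x.2) - tu (L + 1) x) ^ 2 +
        (tu (L + 1) (x.1, x.2 + 1) - tu (L + 1) x) ^ 2)) ≤ max A 0 * (80 * Real.pi ^ 2) :=
    (mul_le_mul_of_nonneg_right (ha.trans (le_max_left _ _)) hG0).trans
      (mul_le_mul_of_nonneg_left h10 hA0)
  have h14 : (1 / 2 : ℝ) * (3 / 2 * (K : ℝ) ^ 2) ≤ (1 - y) * (3 / 2 * (K : ℝ) ^ 2) :=
    mul_le_mul_of_nonneg_right (by linarith) (by positivity)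
  linarith

end torus

end Vale.Agent.P159.TM.H694
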