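import Vale.Agent.P159.TM.H41.Ker
import Vale.Agent.P159.TM.H694.Cont
import Vale.Agent.P159.TM.H694.Tor

/-!
Rows GLUE and CONT in the letters of the torus kernel `H41.G` and of `H764.QU`, `H764.Hyp`.
-/

open MeasureTheory Filter Topology

namespace Vale.Agent.P159.TM.H694

open Vale.Agent.P159 Vale.Agent.P159.H353 Vale.Agent.P159.T1.H934 Vale.Agent.P159.T1.H910
  Vale.Agent.P159.R2.H254

section bind

variable {N : ℕ} [NeZero N]

lemma W_wT (b : ℝ) (h : ZMod N × ZMod N → ℤ) :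
    W (grd (tS (N := N)) tT) (fun _ => b) h = SpecC.wT b N h := by
  unfold W SpecC.wT
  rw [Fintype.prod_prod_type]
  refine Finset.prod_congr rfl fun x _ => ?_
  rw [Fintype.prod_bool, mul_comm]
  have e1 : grd (tS (N := N)) tT h (x, false) = h (x + (1, 0)) - h x := by
    show h (tT (x, false)) - h (tS (x, false)) = _
    have : tT (N := N) (x, false) = x + (1, 0) := by
      unfold tT; ext <;> simp
    rw [this]; rfl
  have e2 : grd (tS (N := N)) tT h (x, true) = h (x + (0, 1)) - h x := by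
    show h (tT (x, true)) - h (tS (x, true)) = _
    have : tT (N := N) (x, true) = x + (0, 1) := by
      unfold tT; ext <;> simp
    rw [this]; rfl
  rw [e1, e2]

lemma gr_mg (ξ : ℝ) (h : ZMod N × ZMod N → ℤ) :
    H870.gr (SpecC.ms ξ) h 0 = mg (fun _ => 1 / ξ ^ 2) h := by
  unfold H870.gr mg SpecC.ms
  congr 1
  rw [neg_div, Finset.sum_div]
  congr 1
  refine Finset.sum_congr rfl fun x _ => ?_
  simp only [Pi.zero_apply, sub_zero]
  ring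

lemma Ex_uE (b ξ : ℝ) (F : (ZMod N × ZMod N → ℤ) → ℝ) :
    H870.Ex (SpecC.wT b N) (SpecC.ms ξ) 0 F =
      uE (tS (N := N)) tT b (fun _ => 1 / ξ ^ 2) F /
        mZ (tS (N := N)) tT (fun _ => b) (fun _ => 1 / ξ ^ 2) 0 := by
  rw [← uE_one]
  unfold H870.Ex H870.Zr uE
  simp only [W_wT, gr_mg, mul_one, mul_assoc]

lemma G_cv (b ξ : ℝ) (x z : ZMod N × ZMod N) :
    H41.G b N ξ (z - x) = cv (tS (N := N)) tT b (fun _ => 1 / ξ ^ 2) x z := by
  rw [← H41.Cf_G]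
  unfold H104.Cf
  rw [H41.Ex_co H41.even_wT, zero_mul, sub_zero, Ex_uE]
  rfl

/-- the variance of a linear functional of the heights on the torus -/
theorem frm_eq {b : ℝ} (hb : 0 ≤ b) {ξ : ℝ} (hξ : 0 < ξ) (u : ZMod N × ZMod N → ℝ) :
    M2 (tS (N := N)) tT (fun _ => b) (fun _ => 1 / ξ ^ 2) u /
      mZ (tS (N := N)) tT (fun _ => b) (fun _ => 1 / ξ ^ 2) 0 = H764.frm (H41.G b N ξ) u := by
  rw [var_eq _ _ hb (fun _ => by positivity)]
  unfold H764.frm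
  refine Finset.sum_congr rfl fun x _ => Finset.sum_congr rfl fun z _ => ?_
  rw [G_cv]
  ring

lemma grd_eq (u : ZMod N × ZMod N → ℝ) : H764.grd u =
    ∑ x : ZMod N × ZMod N, ((u (x.1 + 1, x.2) - u x) ^ 2 + (u (x.1, x.2 + 1) - u x) ^ 2) := by
  unfold H764.grd H764.Q
  rw [← Finset.sum_add_distrib]
  refine Finset.sum_congr rfl fun x _ => ?_
  have e1 : x + (1, 0) = (x.1 + 1, x.2) := by ext <;> simp
  have e2 : x + (0, 1) = (x.1, x.2 + 1) := by ext <;> simp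
  rw [e1, e2]

end bind

/-- **GLUE**: below the critical point the one scale bound `QU` fails at all large scales. -/
theorem glue {b : ℝ} (hb : 0 < b) (hc : b < bCrit) (A : ℝ) :
    ∃ X : ℕ, ∀ (ξ N : ℕ) [NeZero N], X ≤ ξ → X * ξ ≤ N → ∀ y a : ℝ, y ≤ 1 / 2 → a ≤ A →
      ¬ H764.QU (ξ : ℝ) (H41.G b N ξ) y a := by
  obtain ⟨X, hX⟩ := glue_core hb hc A
  refine ⟨max X 1, fun ξ N _ h1 h2 y a hy ha hQ => ?_⟩
  have hξ1 : 1 ≤ ξ := (le_max_right _ _).trans h1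
  have hξ : (0 : ℝ) < ξ := by exact_mod_cast hξ1
  refine hX ξ N ((le_max_left _ _).trans h1)
    ((Nat.mul_le_mul_right ξ (le_max_left _ _)).trans h2) y a hy ha fun u => ?_
  rw [frm_eq hb.le hξ, ← grd_eq]
  exact hQ u

section contQ

variable {N : ℕ} [NeZero N]

theorem tendsto_G {b0 : ℝ} (hb : 0 < b0) {ξ : ℝ} (hξ : 0 < ξ) (w : ZMod N × ZMod N) :
    Tendsto (fun b => H41.G b N ξ w) (𝓝 b0) (𝓝 (H41.G b0 N ξ w)) := by
  have h1 := tendsto_cv (tS (N := N)) tT hb (m := fun _ => 1 / ξ ^ 2) (fun _ => by positivity) 0 w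
  simp only [← G_cv, sub_zero] at h1
  exact h1

theorem tendsto_Gh {b0 : ℝ} (hb : 0 < b0) {ξ : ℝ} (hξ : 0 < ξ) (k : ZMod N × ZMod N) :
    Tendsto (fun b => H764.Gh (H41.G b N ξ) k) (𝓝 b0) (𝓝 (H764.Gh (H41.G b0 N ξ) k)) := by
  unfold H764.Gh
  exact tendsto_finsetSum _ fun w _ => (tendsto_G hb hξ w).mul_const _

theorem contQU {b0 : ℝ} (hb : 0 < b0) {ξ : ℝ} (hξ : 0 < ξ) {y y' a a' : ℝ} (hy : y < y')
    (ha : a ≤ a') (h : H764.QU ξ (H41.G b0 N ξ) y a) :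
    ∀ᶠ b in 𝓝 b0, H764.QU ξ (H41.G b N ξ) y' a' := by
  have hη : 0 < (y' - y) * ξ ^ 2 := mul_pos (sub_pos.2 hy) (by positivity)
  have h1 := cont_var (tS (N := N)) tT hb (m := fun _ => 1 / ξ ^ 2) (fun _ => by positivity) hη
  filter_upwards [h1, eventually_gt_nhds hb] with b hb1 hb2 u
  have h2 := hb1 u
  rw [frm_eq hb.le hξ, frm_eq hb2.le hξ] at h2
  have h3 := h u
  have h4 : 0 ≤ H764.grd u := by
    rw [grd_eq]
    exact Finset.sum_nonneg fun x _ => by positivity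
  have h5 : a * ξ ^ 4 * H764.grd u ≤ a' * ξ ^ 4 * H764.grd u :=
    mul_le_mul_of_nonneg_right (mul_le_mul_of_nonneg_right ha (by positivity)) h4
  calc (1 - y') * ξ ^ 2 * (∑ x, u x ^ 2) - a' * ξ ^ 4 * H764.grd u
      ≤ ((1 - y) * ξ ^ 2 * (∑ x, u x ^ 2) - a * ξ ^ 4 * H764.grd u) -
        (y' - y) * ξ ^ 2 * ∑ x, u x ^ 2 := by
          have : (1 - y') * ξ ^ 2 * (∑ x, u x ^ 2) =
            (1 - y) * ξ ^ 2 * (∑ x, u x ^ 2) - (y' - y) * ξ ^ 2 * ∑ x, u x ^ 2 := by ring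
          rw [this]
          linarith
    _ ≤ H764.frm (H41.G b0 N ξ) u - (y' - y) * ξ ^ 2 * ∑ x, u x ^ 2 := by linarith
    _ ≤ _ := h2

theorem contH2 {b0 : ℝ} (hb : 0 < b0) {ξ : ℝ} (hξ : 0 < ξ) {C2 C2' W : ℝ} (hC : 0 ≤ C2)
    (hCC : C2 < C2') (h : H764.H2 C2 W ξ (H41.G b0 N ξ)) :
    ∀ᶠ b in 𝓝 b0, H764.H2 C2' W ξ (H41.G b N ξ) := by
  have h1 : ∀ k : ZMod N × ZMod N, ∀ᶠ b in 𝓝 b0, |H764.pw k.1| ≤ W / ξ → |H764.pw k.2| ≤ W / ξ →
      1 ≤ C2' * (1 / ξ ^ 2 + H764.pw k.1 ^ 2 + H764.pw k.2 ^ 2) * H764.Gh (H41.G b N ξ) k := by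
    intro k
    by_cases hk : |H764.pw k.1| ≤ W / ξ ∧ |H764.pw k.2| ≤ W / ξ
    · have h2 := h.strict hC hCC k hk.1 hk.2
      have h3 := (tendsto_Gh (N := N) hb hξ k).const_mul
        (C2' * (1 / ξ ^ 2 + H764.pw k.1 ^ 2 + H764.pw k.2 ^ 2))
      filter_upwards [h3.eventually (lt_mem_nhds h2)] with b hb1 _ _
      exact hb1.le
    · exact Eventually.of_forall fun b h2 h3 => absurd ⟨h2, h3⟩ hk
  filter_upwards [eventually_all.2 h1] with b hb1 k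
  exact hb1 k

/-- **CONT**: the one scale hypothesis is open in the coupling. -/
theorem contHyp {b0 : ℝ} (hb : 0 < b0) {ξ : ℝ} (hξ : 0 < ξ) {C2 C2' W y y' a a' : ℝ}
    (hC : 0 ≤ C2) (hCC : C2 < C2') (hy : y < y') (ha : a ≤ a')
    (h : H764.Hyp C2 W ξ (H41.G b0 N ξ) y a) :
    ∀ᶠ b in 𝓝 b0, H764.Hyp C2' W ξ (H41.G b N ξ) y' a' := by
  filter_upwards [contQU hb hξ hy ha h.qu, contH2 hb hξ hC hCC h.h2] with b h1 h2
  exact ⟨h1, h2⟩

end contQ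

end Vale.Agent.P159.TM.H694
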