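import Vale.Agent.P159.T1.H910.MonoJ

/-!
Row GLUE. Comparison of a massive model on a finite graph with a massless model on a connected
part of the graph: neutral exponential moments increase if the couplings of the other edges are
sent to infinity and the masses of the part are removed.
-/

open MeasureTheory Filter Topology

namespace Vale.Agent.P159.TM.H694

open Vale.Agent.P159 Vale.Agent.P159.H353 Vale.Agent.P159.T1.H934 Vale.Agent.P159.T1.H910

section model

variable {V E : Type} [Fintype V] [Fintype E]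

/-- Gaussian weight with masses `m` -/
noncomputable def mg (m : V → ℝ) (h : V → ℤ) : ℝ := Real.exp (-(∑ x, m x * (h x : ℝ) ^ 2) / 2)

/-- partition function with couplings `b`, masses `m` and tilt `g` -/
noncomputable def mZ (s t : E → V) (b : E → ℝ) (m g : V → ℝ) : ℝ :=
  ∑' h : V → ℤ, W (grd s t) b h * (mg m h * Real.exp (li g h))

/-- monotonicity of the exponential moments in the couplings and in the masses -/
def MonoStmt (s t : E → V) : Prop :=
  ∀ (b b' : E → ℝ) (m m' : V → ℝ), (∀ e, 0 ≤ b e) → (∀ e, b e ≤ b' e) → (∀ x, 0 < m' x) →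
    (∀ x, m' x ≤ m x) → ∀ g : V → ℝ,
      mZ s t b m g * mZ s t b' m' 0 ≤ mZ s t b' m' g * mZ s t b m 0

lemma mg_pos (m : V → ℝ) (h : V → ℤ) : 0 < mg m h := Real.exp_pos _

/-- one-dimensional sums -/
lemma summable_gauss {m : ℝ} (hm : 0 < m) (g : ℝ) :
    Summable fun k : ℤ => Real.exp (-(m * (k : ℝ) ^ 2) / 2 + g * k) := by
  have h1 : Summable fun k : ℤ => Real.exp (-|(k : ℝ)|) := by
    have h2 : Summable fun n : ℕ => Real.exp (-(n : ℝ)) := Real.summable_exp_neg_nat
    refine Summable.of_nat_of_neg (h2.congr fun n => ?_) (h2.congr fun n => ?_)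
    · simp
    · simp
  refine Summable.of_nonneg_of_le (fun _ => (Real.exp_pos _).le) (fun k => ?_)
    (h1.mul_left (Real.exp ((|g| + 1) ^ 2 / (2 * m))))
  rw [← Real.exp_add]
  apply Real.exp_le_exp.2
  have h3 : g * k ≤ |g| * |(k : ℝ)| := by
    rw [← abs_mul]; exact le_abs_self _
  have h4 : 0 ≤ (m * |(k : ℝ)| - (|g| + 1)) ^ 2 / (2 * m) := by positivity
  have h5 : (m * |(k : ℝ)| - (|g| + 1)) ^ 2 / (2 * m) =
      m * (k : ℝ) ^ 2 / 2 - (|g| + 1) * |(k : ℝ)| + (|g| + 1) ^ 2 / (2 * m) := by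
    rw [← sq_abs (k : ℝ)]
    field_simp
    ring
  rw [h5] at h4
  linarith

/-- sums over all heights of a Gaussian with a tilt -/
lemma summable_mg {m : V → ℝ} (hm : ∀ x, 0 < m x) (g : V → ℝ) :
    Summable fun h : V → ℤ => mg m h * Real.exp (li g h) := by
  have h1 := (prod_real (a := fun (x : V) (k : ℤ) =>
    Real.exp (-(m x * (k : ℝ) ^ 2) / 2 + g x * k)) (fun x =>
    (summable_gauss (hm x) (g x)).congr fun k => (abs_of_pos (Real.exp_pos _)).symm)).1
  refine h1.congr fun h => ?_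
  rw [abs_of_nonneg (Finset.prod_nonneg fun x _ => (Real.exp_pos _).le), ← Real.exp_sum]
  unfold mg li
  rw [← Real.exp_add, Finset.sum_add_distrib]
  congr 2
  rw [← Finset.sum_neg_distrib, Finset.sum_div]

omit [Fintype V] in
lemma W_le {J : E → ℝ} (hJ : ∀ e, 0 ≤ J e) (D : (V → ℤ) → E → ℤ) (h : V → ℤ) :
    W D J h ≤ ∏ e, wI (J e) 0 := by
  unfold W
  refine Finset.prod_le_prod (fun e _ => wI_nonneg (hJ e) _) fun e _ => ?_
  exact wI_anti (hJ e) (by rw [abs_zero]; exact abs_nonneg _)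

lemma summable_mZ (s t : E → V) {b : E → ℝ} (hb : ∀ e, 0 ≤ b e) {m : V → ℝ} (hm : ∀ x, 0 < m x)
    (g : V → ℝ) : Summable fun h : V → ℤ => W (grd s t) b h * (mg m h * Real.exp (li g h)) := by
  refine Summable.of_nonneg_of_le (fun h => mul_nonneg (W_nonneg hb _)
    (mul_nonneg (mg_pos _ _).le (Real.exp_pos _).le)) (fun h => ?_)
    ((summable_mg hm g).mul_left (∏ e, wI (b e) 0))
  exact mul_le_mul_of_nonneg_right (W_le hb _ h) (mul_nonneg (mg_pos _ _).le (Real.exp_pos _).le)

lemma mZ_pos (s t : E → V) {b : E → ℝ} (hb : ∀ e, 0 ≤ b e) {m : V → ℝ} (hm : ∀ x, 0 < m x)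
    (g : V → ℝ) : 0 < mZ s t b m g := by
  refine (summable_mZ s t hb hm g).tsum_pos (fun h => mul_nonneg (W_nonneg hb _)
    (mul_nonneg (mg_pos _ _).le (Real.exp_pos _).le)) 0 ?_
  exact mul_pos (W0_pos hb) (mul_pos (mg_pos _ _) (Real.exp_pos _))

end model

section split

variable {V E : Type} [Fintype V] [Fintype E]

omit [Fintype V] in
/-- a translation invariant function times a function of the value at `o` -/
lemma hasSum_pin {A : (V → ℤ) → ℝ} (hA : ∀ h (k : ℤ), A (fun x => h x + k) = A h) (o : V)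
    {c : ℤ → ℝ} (hc : Summable fun k => |c k|)
    (hs : Summable fun h : V → ℤ => |if h o = 0 then A h else 0|) :
    (Summable fun h : V → ℤ => |A h * c (h o)|) ∧
      ∑' h : V → ℤ, A h * c (h o) = (∑' h : V → ℤ, if h o = 0 then A h else 0) * ∑' k, c k := by
  set G : (V → ℤ) × ℤ → ℝ := fun p => (if p.1 o = 0 then A p.1 else 0) * c p.2 with hG
  set φ : (V → ℤ) → (V → ℤ) × ℤ := fun h => (fun x => h x - h o, h o) with hφ
  have hinj : Function.Injective φ := by
    intro h k hk
    have h1 := congrFun (Prod.mk.inj hk).1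
    have h2 := (Prod.mk.inj hk).2
    funext x
    have h3 : h x - h o = k x - k o := h1 x
    omega
  have hGs : Summable fun p => |G p| := by
    refine (hs.mul_of_nonneg hc (fun _ => abs_nonneg _) (fun _ => abs_nonneg _)).congr fun p => ?_
    simp only [hG]
    rw [abs_mul]
  have he : ∀ h, G (φ h) = A h * c (h o) := by
    intro h
    simp only [hG, hφ, sub_self, if_true]
    congr 1
    have := hA h (-(h o))
    simpa only [sub_eq_add_neg] using this
  have hsupp : Function.support G ⊆ Set.range φ := by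
    rintro ⟨h, k⟩ hp
    have h0 : h o = 0 := by
      by_contra hne
      exact hp (by simp only [hG, if_neg hne, zero_mul])
    refine ⟨fun x => h x + k, ?_⟩
    simp only [hφ, h0, zero_add, add_sub_cancel_right]
  constructor
  · exact (hGs.comp_injective hinj).congr fun h => by simp only [Function.comp]; rw [he]
  · calc ∑' h : V → ℤ, A h * c (h o) = ∑' h, G (φ h) := tsum_congr fun h => (he h).symm
      _ = ∑' p, G p := hinj.tsum_eq hsupp
      _ = _ := by
        have h1 := hs.of_abs.tsum_mul_tsum hc.of_abs (hGs.of_abs)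
        exact h1.symm

end split

section core

variable {V0 U E0 E1 : Type} [Fintype V0] [Fintype U] [Fintype E0] [Fintype E1]

omit [Fintype V0] [Fintype U] in
lemma W_sum {s t : E0 ⊕ E1 → V0 ⊕ U} {s0 t0 : E0 → V0} (hs : ∀ e, s (Sum.inl e) = Sum.inl (s0 e))
    (ht : ∀ e, t (Sum.inl e) = Sum.inl (t0 e)) (b : E0 ⊕ E1 → ℝ) (h : V0 ⊕ U → ℤ) :
    W (grd s t) b h = W (grd s0 t0) (fun e => b (Sum.inl e)) (fun x => h (Sum.inl x)) *
      ∏ e : E1, wI (b (Sum.inr e)) (grd s t h (Sum.inr e)) := by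
  unfold W
  rw [Fintype.prod_sum_type]
  congr 1
  refine Finset.prod_congr rfl fun e _ => ?_
  congr 1
  show h (t (Sum.inl e)) - h (s (Sum.inl e)) = h (Sum.inl (t0 e)) - h (Sum.inl (s0 e))
  rw [hs, ht]

lemma mg_sum (m : V0 ⊕ U → ℝ) (h : V0 ⊕ U → ℤ) :
    mg m h = mg (fun x => m (Sum.inl x)) (fun x => h (Sum.inl x)) *
      mg (fun x => m (Sum.inr x)) (fun x => h (Sum.inr x)) := by
  unfold mg
  rw [← Real.exp_add, Fintype.sum_sum_type]
  congr 1
  ring

lemma li_sum (g0 : V0 → ℝ) (h : V0 ⊕ U → ℤ) :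
    li (Sum.elim g0 0) h = li g0 (fun x => h (Sum.inl x)) := by
  unfold li
  rw [Fintype.sum_sum_type]
  simp

omit [Fintype V0] [Fintype U] in
/-- product form of a sum over the heights on a disjoint union -/
lemma sum_prod_form {f1 : (V0 → ℤ) → ℝ} {f2 : (U → ℤ) → ℝ} (h1 : Summable fun h => |f1 h|)
    (h2 : Summable fun h => |f2 h|) :
    (Summable fun h : V0 ⊕ U → ℤ => |f1 (fun x => h (Sum.inl x)) * f2 (fun x => h (Sum.inr x))|) ∧
      ∑' h : V0 ⊕ U → ℤ, f1 (fun x => h (Sum.inl x)) * f2 (fun x => h (Sum.inr x)) =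
        (∑' h, f1 h) * ∑' h, f2 h := by
  set G : (V0 → ℤ) × (U → ℤ) → ℝ := fun p => f1 p.1 * f2 p.2 with hG
  have hGs : Summable fun p => |G p| := by
    refine (h1.mul_of_nonneg h2 (fun _ => abs_nonneg _) (fun _ => abs_nonneg _)).congr fun p => ?_
    simp only [hG]
    rw [abs_mul]
  constructor
  · exact ((Equiv.sumArrowEquivProdArrow V0 U ℤ).summable_iff.2 hGs)
  · rw [h1.of_abs.tsum_mul_tsum h2.of_abs hGs.of_abs]
    exact (Equiv.sumArrowEquivProdArrow V0 U ℤ).tsum_eq G

omit [Fintype V0] [Fintype E0] in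
lemma grd_add_const {s0 t0 : E0 → V0} (h : V0 → ℤ) (k : ℤ) :
    grd s0 t0 (fun x => h x + k) = grd s0 t0 h := by
  funext e
  show (h (t0 e) + k) - (h (s0 e) + k) = h (t0 e) - h (s0 e)
  ring

lemma li_add_const {g0 : V0 → ℝ} (hg : ∑ x, g0 x = 0) (h : V0 → ℤ) (k : ℤ) :
    li g0 (fun x => h x + k) = li g0 h := by
  unfold li
  push_cast
  simp only [mul_add]
  rw [Finset.sum_add_distrib, ← Finset.sum_mul, hg, zero_mul, add_zero]

/-- **Comparison with a connected part of the graph.** -/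
theorem comp_sum {s t : E0 ⊕ E1 → V0 ⊕ U} {s0 t0 : E0 → V0}
    (hs : ∀ e, s (Sum.inl e) = Sum.inl (s0 e)) (ht : ∀ e, t (Sum.inl e) = Sum.inl (t0 e))
    (hM : MonoStmt s t) (hc : Conn s0 t0) (o : V0) {b : E0 ⊕ E1 → ℝ} (hb : ∀ e, 0 ≤ b e)
    {m : V0 ⊕ U → ℝ} (hm : ∀ x, 0 < m x) {g0 : V0 → ℝ} (hg : ∑ x, g0 x = 0) :
    mZ s t b m (Sum.elim g0 0) * T1.H910.ZZ s0 t0 (fun e => b (Sum.inl e)) {o} (fun _ => 1) ≤
      T1.H910.ZZ s0 t0 (fun e => b (Sum.inl e)) {o} (fun h => Real.exp (li g0 h)) * mZ s t b m 0 := by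
  classical
  set b0 : E0 → ℝ := fun e => b (Sum.inl e) with hb0
  have hb0' : ∀ e, 0 ≤ b0 e := fun e => hb _
  set bn : ℕ → E0 ⊕ E1 → ℝ := fun n => Sum.elim b0 (fun _ => (n : ℝ)) with hbn
  set mn : ℕ → V0 ⊕ U → ℝ := fun n => Sum.elim
    (fun x => if x = o then m (Sum.inl o) else m (Sum.inl x) / ((n : ℝ) + 1))
    (fun x => m (Sum.inr x)) with hmn
  have hbn0 : ∀ n e, 0 ≤ bn n e := by
    rintro n (e | e)
    · exact hb _
    · simp [hbn]
  have hmn0 : ∀ n x, 0 < mn n x := by
    rintro n (x | x)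
    · simp only [hmn, Sum.elim_inl]
      split_ifs
      · exact hm _
      · have := hm (Sum.inl x)
        positivity
    · exact hm _
  have hmn1 : ∀ n x, mn n x ≤ m x := by
    rintro n (x | x)
    · simp only [hmn, Sum.elim_inl]
      split_ifs with h
      · rw [h]
      · exact div_le_self (hm _).le (by linarith [Nat.cast_nonneg (α := ℝ) n])
    · exact le_rfl
  have hev : ∀ᶠ n : ℕ in atTop, ∀ e, b e ≤ bn n e := by
    have h1 : ∀ᶠ n : ℕ in atTop, ∀ e : E1, b (Sum.inr e) ≤ (n : ℝ) :=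
      eventually_all.2 fun e => tendsto_natCast_atTop_atTop.eventually_ge_atTop _
    filter_upwards [h1] with n hn
    rintro (e | e)
    · exact le_rfl
    · exact hn e
  set c : ℕ → ℝ := fun n => ∏ _e : E1, wI n 0 with hcn
  have c0 : ∀ n, 0 < c n := fun n => Finset.prod_pos fun _ _ => wI_zero_pos (Nat.cast_nonneg n)
  -- the limit
  set K : ℝ := ∑' k : ℤ, Real.exp (-(m (Sum.inl o) * (k : ℝ) ^ 2) / 2) with hK
  set M : ℝ := ∑' h : U → ℤ, mg (fun x => m (Sum.inr x)) h with hMd
  have hKs : Summable fun k : ℤ => |Real.exp (-(m (Sum.inl o) * (k : ℝ) ^ 2) / 2)| := by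
    refine (summable_gauss (hm (Sum.inl o)) 0).congr fun k => ?_
    rw [abs_of_pos (Real.exp_pos _), zero_mul, add_zero]
  have hMs : Summable fun h : U → ℤ => |mg (fun x => m (Sum.inr x)) h| := by
    refine (summable_mg (fun x => hm (Sum.inr x)) (0 : U → ℝ)).congr fun h => ?_
    rw [abs_of_pos (mg_pos _ _)]
    simp [li]
  have hK0 : 0 < K := hKs.of_abs.tsum_pos (fun _ => (Real.exp_pos _).le) 0 (Real.exp_pos _)
  have hM0 : 0 < M := hMs.of_abs.tsum_pos (fun _ => (mg_pos _ _).le) 0 (mg_pos _ _)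
  have lim : ∀ g : V0 → ℝ, ∑ x, g x = 0 →
      Tendsto (fun n => mZ s t (bn n) (mn n) (Sum.elim g 0) / c n) atTop
        (𝓝 (T1.H910.ZZ s0 t0 b0 {o} (fun h => Real.exp (li g h)) * K * M)) := by
    intro g hg
    set F : (V0 ⊕ U → ℤ) → ℝ := fun h => (W (grd s0 t0) b0 (fun x => h (Sum.inl x)) *
      Real.exp (li g (fun x => h (Sum.inl x))) *
      Real.exp (-(m (Sum.inl o) * ((h (Sum.inl o) : ℤ) : ℝ) ^ 2) / 2)) *
      mg (fun x => m (Sum.inr x)) (fun x => h (Sum.inr x)) with hF
    have hpin := hasSum_pin (A := fun h : V0 → ℤ => W (grd s0 t0) b0 h * Real.exp (li g h))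
      (fun h k => by
        rw [li_add_const hg]
        congr 1
        unfold W
        rw [grd_add_const]) o (c := fun k => Real.exp (-(m (Sum.inl o) * (k : ℝ) ^ 2) / 2)) hKs
      (by
        have h1 := summable_ZZ hc hb0' (X := {o}) ⟨o, rfl⟩ g (exp_le' g)
        refine h1.congr fun h => ?_
        simp only [Set.mem_singleton_iff, forall_eq])
    have hfin := sum_prod_form (f1 := fun h : V0 → ℤ => W (grd s0 t0) b0 h * Real.exp (li g h) *
      Real.exp (-(m (Sum.inl o) * ((h o : ℤ) : ℝ) ^ 2) / 2)) hpin.1 hMs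
    have hZ : T1.H910.ZZ s0 t0 b0 {o} (fun h => Real.exp (li g h)) =
        ∑' h : V0 → ℤ, if h o = 0 then W (grd s0 t0) b0 h * Real.exp (li g h) else 0 := by
      unfold T1.H910.ZZ
      refine tsum_congr fun h => ?_
      simp only [Set.mem_singleton_iff, forall_eq]
    have hFsum : ∑' h, F h = T1.H910.ZZ s0 t0 b0 {o} (fun h => Real.exp (li g h)) * K * M := by
      rw [hZ, ← hpin.2]
      exact hfin.2
    rw [← hFsum]
    have hterm : ∀ n, mZ s t (bn n) (mn n) (Sum.elim g 0) / c n = ∑' h : V0 ⊕ U → ℤ,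
        W (grd s0 t0) b0 (fun x => h (Sum.inl x)) *
          (∏ e : E1, wI n (grd s t h (Sum.inr e)) / wI n 0) *
          (mg (fun x => mn n (Sum.inl x)) (fun x => h (Sum.inl x)) *
            mg (fun x => m (Sum.inr x)) (fun x => h (Sum.inr x)) *
              Real.exp (li g (fun x => h (Sum.inl x)))) := by
      intro n
      unfold mZ
      rw [← tsum_div_const]
      refine tsum_congr fun h => ?_
      rw [W_sum hs ht, mg_sum, li_sum, Finset.prod_div_distrib]
      simp only [hbn, hmn, hcn, Sum.elim_inl, Sum.elim_inr]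
      ring
    simp only [hterm]
    refine tendsto_tsum_of_dominated_convergence (bound := fun h => |F h|) hfin.1 (fun h => ?_) ?_
    · have l1 : Tendsto (fun n : ℕ => ∏ e : E1, wI n (grd s t h (Sum.inr e)) / wI n 0) atTop
          (𝓝 (∏ _e : E1, (1 : ℝ))) := tendsto_finsetProd _ fun e _ => wI_ratio _
      have l2 : Tendsto (fun n : ℕ => mg (fun x => mn n (Sum.inl x)) (fun x => h (Sum.inl x))) atTop
          (𝓝 (Real.exp (-(m (Sum.inl o) * ((h (Sum.inl o) : ℤ) : ℝ) ^ 2) / 2))) := by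
        unfold mg
        refine (Real.continuous_exp.tendsto _).comp ?_
        have l3 : Tendsto (fun n : ℕ => ∑ x : V0, mn n (Sum.inl x) * ((h (Sum.inl x) : ℤ) : ℝ) ^ 2)
            atTop (𝓝 (∑ x : V0, (if x = o then m (Sum.inl o) else 0) *
              ((h (Sum.inl x) : ℤ) : ℝ) ^ 2)) := by
          refine tendsto_finsetSum _ fun x _ => Tendsto.mul_const _ ?_
          simp only [hmn, Sum.elim_inl]
          by_cases hx : x = o
          · simp only [hx, if_true]
            exact tendsto_const_nhds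
          · simp only [if_neg hx]
            exact tendsto_const_nhds.div_atTop
              (tendsto_atTop_add_const_right _ _ tendsto_natCast_atTop_atTop)
        have l4 : ∑ x : V0, (if x = o then m (Sum.inl o) else 0) *
              ((h (Sum.inl x) : ℤ) : ℝ) ^ 2 = m (Sum.inl o) * ((h (Sum.inl o) : ℤ) : ℝ) ^ 2 := by
          simp only [ite_mul, zero_mul, Finset.sum_ite_eq', Finset.mem_univ, if_true]
        rw [l4] at l3
        exact l3.neg.div_const 2
      rw [Finset.prod_const_one] at l1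
      have l5 := (l1.const_mul (W (grd s0 t0) b0 (fun x => h (Sum.inl x)))).mul
        ((l2.mul_const (mg (fun x => m (Sum.inr x)) (fun x => h (Sum.inr x)))).mul_const
          (Real.exp (li g (fun x => h (Sum.inl x)))))
      have l6 : W (grd s0 t0) b0 (fun x => h (Sum.inl x)) * 1 *
          (Real.exp (-(m (Sum.inl o) * ((h (Sum.inl o) : ℤ) : ℝ) ^ 2) / 2) *
            mg (fun x => m (Sum.inr x)) (fun x => h (Sum.inr x)) *
              Real.exp (li g (fun x => h (Sum.inl x)))) = F h := by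
        simp only [hF]
        ring
      rw [l6] at l5
      exact l5
    · filter_upwards with n h
      have p1 : 0 ≤ W (grd s0 t0) b0 (fun x => h (Sum.inl x)) := W_nonneg hb0' _
      have p2 : 0 ≤ ∏ e : E1, wI n (grd s t h (Sum.inr e)) / wI n 0 :=
        Finset.prod_nonneg fun e _ => div_nonneg (wI_nonneg (Nat.cast_nonneg n) _)
          (wI_zero_pos (Nat.cast_nonneg n)).le
      have p3 : ∏ e : E1, wI n (grd s t h (Sum.inr e)) / wI n 0 ≤ 1 :=
        Finset.prod_le_one (fun e _ => div_nonneg (wI_nonneg (Nat.cast_nonneg n) _)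
          (wI_zero_pos (Nat.cast_nonneg n)).le) fun e _ => by
            rw [div_le_one (wI_zero_pos (Nat.cast_nonneg n))]
            exact wI_anti (Nat.cast_nonneg n) (by rw [abs_zero]; exact abs_nonneg _)
      have p4 : mg (fun x => mn n (Sum.inl x)) (fun x => h (Sum.inl x)) ≤
          Real.exp (-(m (Sum.inl o) * ((h (Sum.inl o) : ℤ) : ℝ) ^ 2) / 2) := by
        unfold mg
        apply Real.exp_le_exp.2
        have q1 : m (Sum.inl o) * ((h (Sum.inl o) : ℤ) : ℝ) ^ 2 ≤
            ∑ x : V0, mn n (Sum.inl x) * ((h (Sum.inl x) : ℤ) : ℝ) ^ 2 := by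
          refine le_trans (le_of_eq ?_) (Finset.single_le_sum (f := fun x : V0 =>
            mn n (Sum.inl x) * ((h (Sum.inl x) : ℤ) : ℝ) ^ 2)
            (fun x _ => mul_nonneg (hmn0 n _).le (sq_nonneg _)) (Finset.mem_univ o))
          simp only [hmn, Sum.elim_inl, if_true]
        linarith
      have p5 := mg_pos (fun x => mn n (Sum.inl x)) (fun x => h (Sum.inl x))
      have p6 := mg_pos (fun x => m (Sum.inr x)) (fun x => h (Sum.inr x))
      have p7 := Real.exp_pos (li g (fun x => h (Sum.inl x)))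
      have hF0 : |F h| = W (grd s0 t0) b0 (fun x => h (Sum.inl x)) * 1 *
          (Real.exp (-(m (Sum.inl o) * ((h (Sum.inl o) : ℤ) : ℝ) ^ 2) / 2) *
            mg (fun x => m (Sum.inr x)) (fun x => h (Sum.inr x)) *
              Real.exp (li g (fun x => h (Sum.inl x)))) := by
        rw [abs_of_nonneg]
        · simp only [hF]
          ring
        · simp only [hF]
          positivity
      rw [hF0, Real.norm_eq_abs, abs_of_nonneg (by positivity)]
      gcongr
  have h0 : ∑ _x : V0, (0 : ℝ) = 0 := by simp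
  have e0 : (Sum.elim (0 : V0 → ℝ) 0 : V0 ⊕ U → ℝ) = 0 := by
    funext x
    rcases x with x | x <;> rfl
  have L1 := lim g0 hg
  have L0 := lim 0 (by simp)
  rw [e0] at L0
  have eZ : T1.H910.ZZ s0 t0 b0 {o} (fun h => Real.exp (li (0 : V0 → ℝ) h)) =
      T1.H910.ZZ s0 t0 b0 {o} (fun _ => 1) := by
    congr 1
    funext h
    simp [li]
  rw [eZ] at L0
  have hfin : mZ s t b m (Sum.elim g0 0) * (T1.H910.ZZ s0 t0 b0 {o} (fun _ => 1) * K * M) ≤
      (T1.H910.ZZ s0 t0 b0 {o} (fun h => Real.exp (li g0 h)) * K * M) * mZ s t b m 0 := by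
    refine le_of_tendsto_of_tendsto (L0.const_mul _) (L1.mul_const _) ?_
    filter_upwards [hev] with n hn
    have h1 := hM b (bn n) m (mn n) hb hn (hmn0 n) (hmn1 n) (Sum.elim g0 0)
    rw [← mul_div_assoc, div_mul_eq_mul_div]
    exact div_le_div_of_nonneg_right h1 (c0 n).le
  have hKM : 0 < K * M := mul_pos hK0 hM0
  have h2 : (mZ s t b m (Sum.elim g0 0) * T1.H910.ZZ s0 t0 b0 {o} (fun _ => 1)) * (K * M) ≤
      (T1.H910.ZZ s0 t0 b0 {o} (fun h => Real.exp (li g0 h)) * mZ s t b m 0) * (K * M) := by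
    nlinarith [hfin]
  exact le_of_mul_le_mul_right h2 hKM

end core

end Vale.Agent.P159.TM.H694
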