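import Vale.Agent.P159.R2.H254.Final
import Vale.Agent.P159.TM.H694.Comp

/-!
Row GLUE. The block: below the critical point the macroscopic modes of the heights of the free
block vanish.
-/

open MeasureTheory Filter Topology

namespace Vale.Agent.P159.TM.H694

open Vale.Agent.P159 Vale.Agent.P159.H353 Vale.Agent.P159.T1.H934 Vale.Agent.P159.T1.H910
  Vale.Agent.P159.R2.H254

/-- sum over the heights of the block with the value `0` at the corner -/
noncomputable def bS (N : ℕ) (b : ℝ) (f : (Fa N → ℤ) → ℝ) : ℝ :=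
  T1.H910.ZZ (blf (N := N)) brt (fun _ => b) {((0, 0) : Fa N)} f

lemma W_blk {N : ℕ} {b : ℝ} (hb : 0 ≤ b) (h : Fa N → ℤ) :
    W (grd (blf (N := N)) brt) (fun _ => b) h = hWt N b h := by
  rw [hWt_eq hb]
  unfold W
  refine Finset.prod_congr rfl fun e _ => ?_
  rw [← wI_neg]
  congr 1
  show -(h (brt e) - h (blf e)) = h (blf e) - h (brt e)
  ring

lemma bS_eq {N : ℕ} {b : ℝ} (hb : 0 ≤ b) (f : (Fa N → ℤ) → ℝ) :
    bS N b f = ∑' h : Hgt N, hWt N b h.1 * f h.1 := by
  have h1 := tsum_subtype {h : Fa N → ℤ | h (0, 0) = 0} (fun h => hWt N b h * f h)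
  unfold bS T1.H910.ZZ
  refine Eq.trans ?_ h1.symm
  refine tsum_congr fun h => ?_
  rw [W_blk hb]
  simp only [Set.mem_singleton_iff, forall_eq, Set.indicator_apply, Set.mem_ofPred_eq]

lemma conn_blk (N : ℕ) : Conn (blf (N := N)) brt := by
  have hs : ∀ u v, Relation.ReflTransGen (adjG (blf (N := N)) brt) u v →
      Relation.ReflTransGen (adjG (blf (N := N)) brt) v u := by
    intro u v h
    induction h with
    | refl => exact Relation.ReflTransGen.refl
    | tail _ h2 ih =>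
      refine Relation.ReflTransGen.head ?_ ih
      obtain ⟨e, he⟩ := h2
      exact ⟨e, he.symm⟩
  have hV : ∀ (i j : ℕ) (hi : i + 1 < N + 1) (hj : j < N + 1),
      adjG (blf (N := N)) brt (⟨i, by omega⟩, ⟨j, hj⟩) (⟨i + 1, hi⟩, ⟨j, hj⟩) := by
    intro i j hi hj
    exact ⟨Sum.inl (⟨i, by omega⟩, ⟨j, by omega⟩), Or.inl ⟨rfl, rfl⟩⟩
  have hH : ∀ (i j : ℕ) (hi : i < N + 1) (hj : j + 1 < N + 1),
      adjG (blf (N := N)) brt (⟨i, hi⟩, ⟨j, by omega⟩) (⟨i, hi⟩, ⟨j + 1, hj⟩) := by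
    intro i j hi hj
    exact ⟨Sum.inr (⟨i, by omega⟩, ⟨j, by omega⟩), Or.inr ⟨rfl, rfl⟩⟩
  have hL0 : ∀ (i : ℕ) (hi : i < N + 1), Relation.ReflTransGen (adjG (blf (N := N)) brt)
      (0, 0) (⟨i, hi⟩, ⟨0, by omega⟩) := by
    intro i
    induction i with
    | zero => intro hi; exact Relation.ReflTransGen.refl
    | succ i ih => intro hi; exact (ih (by omega)).tail (hV i 0 hi (by omega))
  have hL : ∀ (j : ℕ) (i : ℕ) (hi : i < N + 1) (hj : j < N + 1),
      Relation.ReflTransGen (adjG (blf (N := N)) brt) (0, 0) (⟨i, hi⟩, ⟨j, hj⟩) := by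
    intro j
    induction j with
    | zero => intro i hi hj; exact hL0 i hi
    | succ j ih => intro i hi hj; exact (ih i hi (by omega)).tail (hH i j hi hj)
  rintro ⟨⟨i, hi⟩, ⟨j, hj⟩⟩ ⟨⟨i', hi'⟩, ⟨j', hj'⟩⟩
  exact (hs _ _ (hL j i hi hj)).trans (hL j' i' hi' hj')

/-- one-dimensional profiles -/
noncomputable def pf (x : ℝ) : ℝ := Real.cos (Real.pi * x) - Real.cos (3 * Real.pi * x)

/-- one-dimensional profiles -/
noncomputable def pg (x : ℝ) : ℝ := 1 - Real.cos (2 * Real.pi * x)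

/-- the test function on the block -/
noncomputable def ub (N : ℕ) (x : Fa N) : ℝ := pf (ctr N x.1) * pg (ctr N x.2)

/-- modes -/
def Km : Finset (ℕ × ℕ) := {(1, 0), (3, 0), (1, 2), (3, 2)}

/-- coefficients -/
noncomputable def am (κ : ℝ) (k : ℕ × ℕ) : ℝ :=
  κ * ((if k.1 = 1 then 1 else -1) * (if k.2 = 0 then 1 else -1))

lemma modes_eq (N : ℕ) (κ : ℝ) (h : Fa N → ℤ) :
    ∑ k ∈ Km, am κ k * fmode N k.1 k.2 h = li (fun x => κ / ((N : ℝ) + 1) ^ 2 * ub N x) h := by
  have hL : ∑ k ∈ Km, am κ k * fmode N k.1 k.2 h = κ * fmode N 1 0 h - κ * fmode N 3 0 h -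
      κ * fmode N 1 2 h + κ * fmode N 3 2 h := by
    unfold Km am
    rw [Finset.sum_insert (by decide), Finset.sum_insert (by decide),
      Finset.sum_insert (by decide), Finset.sum_singleton]
    norm_num
    ring
  rw [hL]
  unfold fmode li
  rw [Fintype.sum_prod_type]
  rw [← mul_div_assoc, ← mul_div_assoc, ← mul_div_assoc, ← mul_div_assoc, ← sub_div, ← sub_div,
    ← add_div]
  simp only [Finset.mul_sum, ← Finset.sum_sub_distrib, ← Finset.sum_add_distrib, Finset.sum_div]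
  refine Finset.sum_congr rfl fun i _ => Finset.sum_congr rfl fun j _ => ?_
  unfold ub pf pg
  push_cast
  rw [zero_mul, zero_mul, Real.cos_zero, one_mul]
  field_simp
  ring

lemma bS_one_pos (N : ℕ) {b : ℝ} (hb : 0 ≤ b) : 0 < bS N b fun _ => 1 :=
  ZZ_pos (conn_blk N) (fun _ => hb) ⟨_, rfl⟩

/-- exponential moments of the modes of the block tend to one -/
theorem tendsto_blk {b : ℝ} (hb : 0 < b) (hc : b < bCrit) (κ : ℝ) :
    Tendsto (fun N : ℕ => bS N b (fun h => Real.exp (li (fun x => κ / ((N : ℝ) + 1) ^ 2 * ub N x) h)) /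
      bS N b fun _ => 1) atTop (𝓝 1) := by
  have hY : helicity b = 0 := final.2.2.2.2.1 b hb hc
  have h1 := modes_lim hb Km (by decide) (am κ) 1
  rw [hY] at h1
  simp only [zero_mul, zero_div, mul_zero, Finset.sum_const_zero, Complex.ofReal_zero,
    Complex.exp_zero, one_mul] at h1
  have h2 : ∀ N : ℕ, hMean N b (fun h => Complex.exp ((∑ k ∈ Km, am κ k * fmode N k.1 k.2 h : ℝ) : ℂ)) =
      ((bS N b (fun h => Real.exp (li (fun x => κ / ((N : ℝ) + 1) ^ 2 * ub N x) h)) /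
        bS N b fun _ => 1 : ℝ) : ℂ) := by
    intro N
    unfold hMean
    rw [bS_eq hb.le, bS_eq hb.le, Complex.ofReal_div]
    have e1 : (∑' h : Hgt N, (hWt N b h.1 : ℂ) *
        Complex.exp ((∑ k ∈ Km, am κ k * fmode N k.1 k.2 h.1 : ℝ) : ℂ)) =
        ((∑' h : Hgt N, hWt N b h.1 *
          Real.exp (li (fun x => κ / ((N : ℝ) + 1) ^ 2 * ub N x) h.1) : ℝ) : ℂ) := by
      rw [Complex.ofReal_tsum]
      refine tsum_congr fun h => ?_
      rw [modes_eq, Complex.ofReal_mul, Complex.ofReal_exp]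
    rw [e1]
    simp only [mul_one]
  simp only [h2] at h1
  have h3 := (Complex.continuous_re.tendsto _).comp h1
  simpa only [Function.comp_def, Complex.ofReal_re, Complex.one_re] using h3

lemma ctr_rev (N : ℕ) (i : Fin (N + 1)) : ctr N i.rev = 1 - ctr N i := by
  unfold ctr
  rw [Fin.val_rev, Nat.cast_sub (by omega)]
  push_cast
  field_simp
  ring

lemma pf_rev (x : ℝ) : pf (1 - x) = -pf x := by
  unfold pf
  have h1 : Real.pi * (1 - x) = Real.pi - Real.pi * x := by ring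
  have h2 : 3 * Real.pi * (1 - x) = (Real.pi - 3 * Real.pi * x) + 2 * Real.pi := by ring
  rw [h1, h2, Real.cos_add_two_pi, Real.cos_pi_sub, Real.cos_pi_sub]
  ring

lemma sum_pf (N : ℕ) : ∑ i : Fin (N + 1), pf (ctr N i) = 0 := by
  have h1 : ∑ i : Fin (N + 1), pf (ctr N i) = ∑ i : Fin (N + 1), pf (ctr N i.rev) :=
    (Equiv.sum_comp Fin.revPerm (fun i => pf (ctr N i))).symm
  simp only [ctr_rev, pf_rev, Finset.sum_neg_distrib] at h1
  linarith

/-- neutrality -/
lemma sum_ub (N : ℕ) : ∑ x, ub N x = 0 := by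
  unfold ub
  rw [Fintype.sum_prod_type]
  simp only [← Finset.mul_sum, ← Finset.sum_mul]
  rw [sum_pf, zero_mul]

end Vale.Agent.P159.TM.H694
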