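import Vale.Agent.P159.R2.H254.Final
import Vale.Agent.P159.T1.F.SharpFin

/-!
Row TOP. Consequences of `Y(b_c) = 2/π` for the critical XY model.
-/

open Filter Topology Vale.Agent.P159 Vale.Agent.P159.H950 Vale.Agent.P159.R2.H254

namespace Vale.Agent.P159.TM.H694

/-- the critical point, given the value of the helicity modulus -/
theorem crit_of (hY : helicity bCrit = 2 / Real.pi) :
    -- the exponent of the two-point function, in all directions and on the axis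
    Tendsto (fun x : ℤ × ℤ => Real.log (corrInf bCrit x) /
      Real.log ((max |x.1| |x.2| : ℤ) : ℝ)) cofinite (𝓝 (-(1 / 4))) ∧
    Tendsto (fun r : ℕ => Real.log (corrInf bCrit ((r : ℤ), 0)) / Real.log r) atTop
      (𝓝 (-(1 / 4))) ∧
    (∀ ε : ℝ, 0 < ε → ∃ c K : ℝ, 0 < c ∧ ∀ x : ℤ × ℤ, x ≠ 0 →
      c * ((max |x.1| |x.2| : ℤ) : ℝ) ^ (-(1 / 4 + ε)) ≤ corrInf bCrit x ∧
        corrInf bCrit x ≤ K * ((max |x.1| |x.2| : ℤ) : ℝ) ^ (-(1 / 4 - ε))) ∧
    -- the exponents of all charges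
    (∀ q : ℕ, 1 ≤ q → Tendsto (fun x : ℤ × ℤ =>
      Real.log (chargeInf bCrit ![(q : ℤ), -(q : ℤ)] ![0, x]) /
        Real.log ((max |x.1| |x.2| : ℤ) : ℝ)) cofinite (𝓝 (-((q : ℝ) ^ 2 / 4)))) ∧
    -- the Coulomb gas formula
    (∀ (k : ℕ) (m : Fin k → ℤ), ∑ j, m j = 0 → ∀ ε : ℝ, 0 < ε →
      ∃ K : ℝ, ∀ (x : Fin k → ℤ × ℤ) (N : ℕ), 1 ≤ N →
        (∀ i j, max |(x i - x j).1| |(x i - x j).2| ≤ (N : ℤ)) →
        0 < chargeInf bCrit m x ∧
          |Real.log (chargeInf bCrit m x) - 1 / 8 *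
            ∑ i, ∑ j, (m i * m j : ℝ) *
              Real.log (max 1 ((max |(x i - x j).1| |(x i - x j).2| : ℤ) : ℝ))| ≤
            ε * Real.log N + K) ∧
    -- the scaling limit of the dual heights is the free field with the critical stiffness
    (∀ w : ℝ → ℝ → ℝ, (ContDiff ℝ 2 fun p : ℝ × ℝ => w p.1 p.2) →
      ∀ z : ℂ, Tendsto (fun N => hMean N bCrit fun h => Complex.exp (z * dform N w h)) atTop
        (𝓝 (Complex.exp (z ^ 2 * (1 / Real.pi * ∫ x in (0 : ℝ)..1, ∫ y in (0 : ℝ)..1,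
          (deriv (fun s => w s y) x ^ 2 + deriv (fun s => w x s) y ^ 2) : ℝ))))) := by
  obtain ⟨s1, s2, s3, s4, s5, s6⟩ := T1.F.sharpFin
  have hpi := Real.pi_pos
  have e1 : 1 / (2 * Real.pi * helicity bCrit) = 1 / 4 := by
    rw [hY]; field_simp; norm_num
  have h1 := s1 bCrit le_rfl
  rw [e1] at h1
  have hb : 0 < bCrit := H170.bCrit_pos
  refine ⟨h1, ?_, ?_, ?_, ?_, ?_⟩
  · have hinj : Function.Injective fun r : ℕ => (((r : ℤ), 0) : ℤ × ℤ) := by
      intro r r' hr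
      have := (Prod.mk.inj hr).1
      exact_mod_cast this
    have h2 := h1.comp (hinj.tendsto_cofinite)
    rw [Nat.cofinite_eq_atTop] at h2
    refine h2.congr fun r => ?_
    simp only [Function.comp_apply]
    congr 2
    have : max |((r : ℕ) : ℤ)| |(0 : ℤ)| = (r : ℤ) := by
      rw [abs_zero, Nat.abs_cast]
      exact max_eq_left (Int.natCast_nonneg r)
    rw [this]
    push_cast
    rfl
  · intro ε hε
    obtain ⟨c, hc, hc1⟩ := s3 ε hε
    obtain ⟨K, hK⟩ := s4.2 hY ε hε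
    exact ⟨c, K, hc, fun x hx => ⟨hc1 x hx, hK x hx⟩⟩
  · intro q hq
    have h2 := s5 bCrit le_rfl q hq
    have e2 : (q : ℝ) ^ 2 / (2 * Real.pi * helicity bCrit) = (q : ℝ) ^ 2 / 4 := by
      rw [hY]; field_simp; norm_num
    rw [e2] at h2
    exact h2
  · intro k m hm ε hε
    have h2 := s6 bCrit le_rfl k m hm ε hε
    have e2 : 1 / (4 * Real.pi * helicity bCrit) = 1 / 8 := by
      rw [hY]; field_simp; norm_num
    rw [e2] at h2
    exact h2
  · intro w hw z
    have h2 := final.2.1 bCrit hb w hw z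
    have e2 : helicity bCrit / 2 = 1 / Real.pi := by
      rw [hY]; field_simp
    rw [e2] at h2
    exact h2

end Vale.Agent.P159.TM.H694
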