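import Vale.Agent.P159.TM.H708.Pd
import Vale.Agent.P159.TM.H694.Comp

/-!
Row GLUE. Monotonicity of the exponential moments in the couplings and the masses, in the letters
of `Comp.lean`.
-/

open MeasureTheory Filter Topology

namespace Vale.Agent.P159.TM.H694

open Vale.Agent.P159 Vale.Agent.P159.H353 Vale.Agent.P159.T1.H934 Vale.Agent.P159.T1.H910

section mono

variable {V E : Type} [Fintype V] [Fintype E]

lemma mg_eq_ga (m : V → ℝ) (h : V → ℤ) : mg m h = H708.ga m h := by
  unfold mg H708.ga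
  congr 1
  rw [neg_div, Finset.sum_div]
  congr 1
  exact Finset.sum_congr rfl fun x _ => by ring

lemma li_eq_lf (g : V → ℝ) (h : V → ℤ) : li g h = H708.lf g h := rfl

lemma bw_eq (s t : E → V) (b : E → ℝ) (m : V → ℝ) (h : V → ℤ) :
    H708.bw (grd s t) b m ∅ h = W (grd s t) b h * mg m h := by
  unfold H708.bw H708.iX
  rw [mg_eq_ga, if_pos (fun x hx => absurd hx (Set.notMem_empty x)), mul_one]

/-- exponential and hyperbolic moments -/
lemma mZ_eq_SS (s t : E → V) {b : E → ℝ} (hb : ∀ e, 0 ≤ b e) {m : V → ℝ} (hm : ∀ x, 0 < m x)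
    (g : V → ℝ) : mZ s t b m g =
      H708.SS (grd s t) b m ∅ fun h => Real.cosh (H708.lf g h) := by
  have h1 := summable_mZ s t hb hm g
  have h2 : Summable fun h : V → ℤ => W (grd s t) b h * (mg m h * Real.exp (-li g h)) := by
    refine (summable_mZ s t hb hm (-g)).congr fun h => ?_
    congr 3
    unfold li
    rw [← Finset.sum_neg_distrib]
    exact Finset.sum_congr rfl fun x _ => by rw [Pi.neg_apply]; ring
  have e1 : mZ s t b m g = ∑' h : V → ℤ, W (grd s t) b h * (mg m h * Real.exp (-li g h)) := by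
    unfold mZ
    rw [← tsum_neg_arg]
    refine tsum_congr fun h => ?_
    rw [W_neg, li_neg]
    congr 2
    unfold mg
    congr 2
    congr 1
    refine Finset.sum_congr rfl fun x _ => ?_
    rw [Pi.neg_apply]
    push_cast
    ring
  have e2 : 2 * mZ s t b m g = mZ s t b m g +
      ∑' h : V → ℤ, W (grd s t) b h * (mg m h * Real.exp (-li g h)) := by
    rw [← e1]; ring
  have e3 : 2 * H708.SS (grd s t) b m ∅ (fun h => Real.cosh (H708.lf g h)) = 2 * mZ s t b m g := by
    rw [e2]
    unfold mZ H708.SS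
    rw [← h1.tsum_add h2, ← tsum_mul_left]
    refine tsum_congr fun h => ?_
    rw [bw_eq]
    beta_reduce
    rw [Real.cosh_eq, ← li_eq_lf]
    ring
  linarith

lemma mZ_zero_SS (s t : E → V) (b : E → ℝ) (m : V → ℝ) :
    mZ s t b m 0 = H708.SS (grd s t) b m ∅ fun _ => 1 := by
  unfold mZ H708.SS
  refine tsum_congr fun h => ?_
  rw [bw_eq]
  simp [li]

theorem monoStmt (s t : E → V) : MonoStmt s t := by
  classical
  intro b b' m m' hb hbb hm' hmm g
  have hm : ∀ x, 0 < m x := fun x => (hm' x).trans_le (hmm x)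
  have hb' : ∀ e, 0 ≤ b' e := fun e => (hb e).trans (hbb e)
  -- couplings
  have h1 := H708.mono_J (K := b' - b) (grd s t) hb (fun e => sub_nonneg.2 (hbb e)) hm ∅
    (H708.inc_cosh g)
  rw [add_sub_cancel] at h1
  rw [← mZ_eq_SS s t hb hm, ← mZ_eq_SS s t hb' hm, ← mZ_zero_SS, ← mZ_zero_SS] at h1
  -- masses
  set ψ : (V → ℤ) → ℝ := fun h => ∏ x, Real.exp (-((m x - m' x) *
      (H708.lf (Pi.single x (1 : ℝ)) h) ^ 2 / 2)) with hψd
  have hψ : H708.PD ψ :=
    H708.PD.prod Finset.univ fun x _ => H708.PD.gauss (sub_nonneg.2 (hmm x)) _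
  have hmg : ∀ h, mg m h = mg m' h * ψ h := by
    intro h
    simp only [hψd]
    rw [← Real.exp_sum]
    unfold mg
    rw [← Real.exp_add]
    congr 1
    have e : ∀ x : V, H708.lf (Pi.single x (1 : ℝ)) h = (h x : ℝ) := by
      intro x
      unfold H708.lf
      rw [Finset.sum_eq_single x]
      · simp
      · intro y _ hy
        rw [Pi.single_eq_of_ne hy, zero_mul]
      · intro hx
        exact absurd (Finset.mem_univ x) hx
    simp only [e]
    rw [neg_div, neg_div, Finset.sum_div, Finset.sum_div, ← Finset.sum_neg_distrib,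
      ← Finset.sum_neg_distrib, ← Finset.sum_add_distrib]
    exact Finset.sum_congr rfl fun x _ => by ring
  have h2 := H708.mono_pd (grd s t) hb' hm' ∅ (H708.inc_cosh g) hψ
  have e1 : H708.SS (grd s t) b' m' ∅ (fun h => Real.cosh (H708.lf g h) * ψ h) =
      H708.SS (grd s t) b' m ∅ fun h => Real.cosh (H708.lf g h) := by
    unfold H708.SS
    refine tsum_congr fun h => ?_
    rw [bw_eq, bw_eq, hmg]
    ring
  have e2 : H708.SS (grd s t) b' m' ∅ ψ = H708.SS (grd s t) b' m ∅ fun _ => 1 := by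
    unfold H708.SS
    refine tsum_congr fun h => ?_
    rw [bw_eq, bw_eq, hmg]
    ring
  rw [e1, e2, ← mZ_eq_SS s t hb' hm, ← mZ_eq_SS s t hb' hm', ← mZ_zero_SS, ← mZ_zero_SS] at h2
  have p1 := mZ_pos s t hb' hm 0
  have p2 := mZ_pos s t hb hm 0
  have p3 := mZ_pos s t hb' hm' 0
  -- combine
  have h3 : (mZ s t b m g * mZ s t b' m' 0) * mZ s t b' m 0 ≤
      (mZ s t b' m' g * mZ s t b m 0) * mZ s t b' m 0 := by
    calc (mZ s t b m g * mZ s t b' m' 0) * mZ s t b' m 0
        = (mZ s t b m g * mZ s t b' m 0) * mZ s t b' m' 0 := by ring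
      _ ≤ (mZ s t b' m g * mZ s t b m 0) * mZ s t b' m' 0 := mul_le_mul_of_nonneg_right h1 p3.le
      _ = (mZ s t b' m g * mZ s t b' m' 0) * mZ s t b m 0 := by ring
      _ ≤ (mZ s t b' m' g * mZ s t b' m 0) * mZ s t b m 0 := mul_le_mul_of_nonneg_right h2 p2.le
      _ = _ := by ring
  exact le_of_mul_le_mul_right h3 p1

end mono

end Vale.Agent.P159.TM.H694
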