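import Vale.Agent.P159.T1.NC.Main
import Vale.Agent.P159.T1.NC.H254.OrderNC
import Vale.Agent.P159.T1.NW.Fin
import Vale.Agent.P159.T1.NW.H566.Chi

/-!
Row TOP. Consequences of `Y(b_c) = 2/π` for the XY model just below the critical point.
-/

open Filter Topology Vale.Agent.P159

namespace Vale.Agent.P159.TM.H694

/-- below the critical point, given the value of the helicity modulus at the critical point -/
theorem near_of (hY : helicity bCrit = 2 / Real.pi) :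
    -- the stiffness at all scales up to the correlation length
    (∀ ε : ℝ, 0 < ε → ∃ K : ℝ, 0 < K ∧ ∀ b : ℝ, 0 < b → b < bCrit →
      ∀ L : ℕ, 1 ≤ L → (L : ℝ) ≤ corrLength b →
        (2 / Real.pi - stiff L b) * (Real.log (corrLength b) - Real.log L) ≤
          ε * Real.log (corrLength b) + K) ∧
    -- the logarithm of the correlation length is that of the finite volume scale
    (∀ d : ℝ, 0 < d → d < 2 / Real.pi → ∀ ε : ℝ, 0 < ε →
      ∃ δ : ℝ, 0 < δ ∧ ∀ b : ℝ, bCrit - δ < b → b < bCrit →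
        ∃ L : ℕ, IsLeast {l : ℕ | 1 ≤ l ∧ stiff l b ≤ 2 / Real.pi - d} L ∧
          Real.log L ≤ (1 + ε) * Real.log (corrLength b) ∧
          Real.log (corrLength b) ≤ (1 + ε) * Real.log L) ∧
    -- the two-point function in the near critical window
    (∀ ν : ℝ, 0 < ν → ν < 2 / 3 →
      ∀ ε : ℝ, 0 < ε → ∃ δ : ℝ, 0 < δ ∧ ∃ K : ℝ, ∀ b : ℝ, bCrit - δ < b → b < bCrit →
        ∀ x : ℤ × ℤ, x ≠ 0 → ((max |x.1| |x.2| : ℤ) : ℝ) ≤ (bCrit - b) ^ (-ν) →
          |Real.log (corrInf b x) + 1 / 4 * Real.log ((max |x.1| |x.2| : ℤ) : ℝ)| ≤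
            ε * Real.log ((max |x.1| |x.2| : ℤ) : ℝ) + K) ∧
    -- the susceptibility
    (∀ γ : ℝ, 0 < γ → γ < 7 / 6 → ∃ c : ℝ, 0 < c ∧ ∀ b : ℝ, 0 < b → b < bCrit →
        Summable (corrInf b) ∧ c * (bCrit - b) ^ (-γ) ≤ ∑' x : ℤ × ℤ, corrInf b x) := by
  obtain ⟨h1, h2, h3⟩ := T1.NW.nearCrit T1.NW.H566.stmtChi
  have hA := NC.sharpNC
  have hB := T1.NC.H254.orderNC NC.sharpNC
  have hpi := Real.pi_pos
  have e1 : 1 / (2 * Real.pi * helicity bCrit) = 1 / 4 := by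
    rw [hY]; field_simp; norm_num
  rw [e1] at h2 h3
  refine ⟨?_, ?_, ?_, ?_⟩
  · intro ε hε
    obtain ⟨K, hK, h⟩ := hA ε hε
    refine ⟨K, hK, fun b hb hbc L hL hLξ => ?_⟩
    have := h b hb hbc L hL hLξ
    rw [hY, sub_self, zero_mul, zero_add] at this
    exact this
  · intro d hd hd2 ε hε
    obtain ⟨δ, hδ, h⟩ := hB d hd hd2 ε hε
    refine ⟨δ, hδ, fun b hb hbc => ?_⟩
    obtain ⟨L, hL, h4, h5⟩ := h b hb hbc
    refine ⟨L, hL, h4, ?_⟩
    rw [hY, sub_self, zero_div, add_zero] at h5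
    exact h5
  · intro ν hν hν2 ε hε
    exact h2 ν hν (by linarith) ε hε
  · intro γ hγ hγ2
    exact h3 γ hγ (by linarith)

end Vale.Agent.P159.TM.H694
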